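import Vale.Agent.P181.H539.W.TStep
import Vale.Agent.P181.R2.H280.NCurry
import Vale.Agent.P181.R2.H940.NDescent
import Vale.Agent.P181.R2.H240.NLemmaI

/-!
# P181 (weighted tail slopes): descent, curried forms, light steps
-/

set_option autoImplicit false

open MvPolynomial

namespace Vale.Agent.P181.H539.W

open Vale.Agent.P181 Vale.Agent.P181.H536 Vale.Agent.P181.H280 Vale.Agent.P181.TN
open Vale.Agent.P181.R2.H866

section Generic

variable {A : Type*} [CommRing A] [Algebra ℂ A]

/-- Light step on products, with an arbitrary factor. -/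
lemma lightG_relation {p q : A} {L : Submodule ℂ A} {b s a k : ℕ} {F : ML A (a + 1)}
    (hp : p ∈ L) (hq : q ∈ L) {y : A} (hy : y ∈ L) (hF : DZ p q y L b s F)
    (hkb : k ≤ b) {w : A} (hw : w ∈ L ^ k)
    (hT : ∀ h ∈ (Submodule.span ℂ {p, q}) ^ (b - k), ∀ g : Fin a → A, (∀ i, g i ∈ L ^ (b + 1)) →
      F (Fin.cons (w * y * h) g) = 0) {j : ℕ} (hj : s ≤ j) (x : ℂ)
    {h : A} (hh : h ∈ (Submodule.span ℂ {p, q}) ^ (b - k)) {g : Fin a → A}
    (hg : ∀ i, g i ∈ L ^ b) :
    Dev y j (lin p q x) (F.curryLeft (w * (lin p q x * h))) g = 0 := by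
  have hUL : Submodule.span ℂ {p, q} ≤ L := by
    rw [Submodule.span_le]
    rintro _ (rfl | rfl)
    · exact hp
    · exact hq
  have hwh : w * h ∈ L ^ b := by
    have h1 : L ^ b = L ^ k * L ^ (b - k) := by rw [← pow_add]; congr 1; omega
    rw [h1]
    exact Submodule.mul_mem_mul hw (pow_le_pow_left' hUL _ hh)
  have h6 := hF j hj x (Fin.cons (w * h) g) (cons_mem hwh hg)
  have hlin : lin p q x ∈ L := L.add_mem hp (L.smul_mem _ hq)
  have h7 : y * (w * h) = (w * y) * h := by ring
  have h8 : lin p q x * (w * h) = w * (lin p q x * h) := by ring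
  rcases Nat.eq_zero_or_pos j with rfl | hj0
  · rw [Dev_cons_zero, h8] at h6
    exact h6
  · obtain ⟨j, rfl⟩ : ∃ j', j = j' + 1 := ⟨j - 1, by omega⟩
    rw [Dev_cons, h7, h8] at h6
    have h9 : Dev y j (lin p q x) (F.curryLeft ((w * y) * h)) g = 0 := by
      rw [Dev]
      apply Finset.sum_eq_zero
      intro I _
      rw [MultilinearMap.curryLeft_apply]
      apply hT h hh
      intro i
      rw [pow_succ']
      refine Submodule.mul_mem_mul ?_ (hg i)
      split_ifs
      · exact hy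
      · exact hlin
    rw [h9, zero_add] at h6
    exact h6

/-- **Light step**, with an arbitrary factor. -/
theorem lightG {p q : A} {L : Submodule ℂ A} {b s a k : ℕ} {F : ML A (a + 1)}
    (hp : p ∈ L) (hq : q ∈ L) {y : A} (hy : y ∈ L) (hF : DZ p q y L b s F)
    (hkb : k ≤ b) {w : A} (hw : w ∈ L ^ k)
    (hT : ∀ h ∈ (Submodule.span ℂ {p, q}) ^ (b - k), ∀ g : Fin a → A, (∀ i, g i ∈ L ^ (b + 1)) →
      F (Fin.cons (w * y * h) g) = 0) (hc : a + k < b + 1 + s)
    {h : A} (hh : h ∈ (Submodule.span ℂ {p, q}) ^ (b + 1 - k)) :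
    DZ p q y L b s (F.curryLeft (w * h)) := by
  intro j hj x g hg
  have hh' := le_span_distinct p q _ hh
  clear hh
  rw [← DevL_apply]
  induction hh' using Submodule.span_induction with
  | mem h hh =>
    obtain ⟨T, hTc, hTn, rfl⟩ := hh
    rw [DevL_apply]
    apply Dev_zero_of_roots p q y j _ g T hTn (by omega)
    intro x' hx'
    obtain ⟨T', rfl⟩ := Multiset.exists_cons_of_mem hx'
    rw [Multiset.card_cons] at hTc
    rw [Lam_cons]
    apply lightG_relation hp hq hy hF hkb hw hT hj x' _ hg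
    have h1 : b - k = Multiset.card T' := by omega
    rw [h1]
    clear h1 hTc hTn hx'
    induction T' using Multiset.induction_on with
    | empty =>
      rw [Lam, Multiset.map_zero, Multiset.prod_zero, Multiset.card_zero, pow_zero]
      exact Submodule.one_le.1 le_rfl
    | cons y' T' ih =>
      rw [Lam_cons, Multiset.card_cons, pow_succ']
      refine Submodule.mul_mem_mul (Submodule.add_mem _ (Submodule.subset_span (by simp))
        (Submodule.smul_mem _ _ (Submodule.subset_span (by simp)))) ih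
  | zero => rw [mul_zero, map_zero]
  | add u v _ _ hu hv => rw [mul_add, map_add, hu, hv, add_zero]
  | smul c u _ hu => rw [mul_smul_comm, map_smul, hu, smul_zero]

/-- `DZ` gives a polynomial of small degree. -/
lemma poly_of_DZ {p q z : A} {L : Submodule ℂ A} {b s a : ℕ} {F : ML A a} (hs : 1 ≤ s)
    (hD : DZ p q z L b s F) (x : ℂ) (g : Fin a → A) (hg : ∀ i, g i ∈ L ^ b) :
    ∃ P : Polynomial ℂ, P.natDegree ≤ s - 1 ∧
      ∀ c, P.eval c = F (fun i => (lin p q x + c • z) * g i) := by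
  refine ⟨∑ k ∈ Finset.range (a + 1),
        Polynomial.C (Dev z k (lin p q x) F g) * Polynomial.X ^ k, ?_, ?_⟩
  · apply Polynomial.natDegree_sum_le_of_forall_le
    intro k _
    by_cases hk : s ≤ k
    · rw [hD k hk x g hg, Polynomial.C_0, zero_mul, Polynomial.natDegree_zero]
      exact Nat.zero_le _
    · exact (Polynomial.natDegree_C_mul_X_pow_le _ _).trans (by omega)
  · intro c
    rw [Polynomial.eval_finsetSum, gen]
    apply Finset.sum_congr rfl
    intro k _
    rw [Polynomial.eval_mul, Polynomial.eval_C, Polynomial.eval_pow, Polynomial.eval_X, mul_comm]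

end Generic

variable {N : ℕ} (P : Fin N → Prop) [DecidablePred P]

/-- The span of the first two and the heavy variables. -/
noncomputable def LA : Submodule ℂ (Sn N) := U2 N ⊔ ZP P

lemma LA_le : LA P ≤ linS (N + 2) := sup_le U2_le (ZP_le P)

lemma linS_eq2 : linS (N + 2) = LA P ⊔ ZP (fun i => ¬ P i) := by
  rw [linS_eq, ZZ_eq P, LA, sup_assoc]

/-- The forms vanish as soon as one argument has larger order. -/
def Top2 (b kA kB : ℕ) {m : ℕ} (F : Fm N (m + 1)) : Prop :=
  ∀ jA jB, kB < jB ∨ (jB = kB ∧ kA < jA) → jA + jB ≤ b → ∀ v ∈ ZP P ^ jA,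
    ∀ w ∈ ZP (fun i => ¬ P i) ^ jB, ∀ A ∈ U2 N ^ (b - jA - jB), Van b (F.curryLeft (w * (v * A)))

lemma mul3_mem {b kA kB : ℕ} (hk : kA + kB ≤ b) {v w A : Sn N} (hv : v ∈ ZP P ^ kA)
    (hw : w ∈ ZP (fun i => ¬ P i) ^ kB) (hA : A ∈ U2 N ^ (b - kA - kB)) :
    w * (v * A) ∈ linS (N + 2) ^ b := by
  have h1 : linS (N + 2) ^ b =
      linS (N + 2) ^ kB * (linS (N + 2) ^ kA * linS (N + 2) ^ (b - kA - kB)) := by
    rw [← pow_add, ← pow_add]; congr 1; omega
  rw [h1]
  exact Submodule.mul_mem_mul (pow_le_pow_left' (ZP_le _) _ hw)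
    (Submodule.mul_mem_mul (pow_le_pow_left' (ZP_le _) _ hv) (pow_le_pow_left' U2_le _ hA))

/-- A submodule which contains all `w * (v * A)` contains all forms of degree `b`. -/
theorem linS_pow_le2 (b : ℕ) (W : Submodule ℂ (Sn N))
    (h : ∀ kA kB, kA + kB ≤ b → ∀ v ∈ ZP P ^ kA, ∀ w ∈ ZP (fun i => ¬ P i) ^ kB,
      ∀ A ∈ U2 N ^ (b - kA - kB), w * (v * A) ∈ W) :
    linS (N + 2) ^ b ≤ W := by
  apply linS_pow_le
  intro k hk z hz A hA
  have h1 : ZZ N ^ k ≤ W.comap (LinearMap.mulRight ℂ A) := by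
    rw [ZZ_eq P]
    apply Vale.Agent.P181.R2.H940.sup_pow_le
    intro j hj
    rw [Submodule.mul_le]
    intro w hw v hv
    rw [Submodule.mem_comap, LinearMap.mulRight_apply, mul_assoc]
    refine h (k - j) j (by omega) v hv w hw A ?_
    have h2 : b - (k - j) - j = b - k := by omega
    rw [h2]
    exact hA
  exact h1 hz

/-- **Descent**, for two kinds of variables. -/
theorem descent2 {m b : ℕ} (F : Fm N (m + 1)) (h : ∀ kA kB, kA + kB ≤ b → Top2 P b kA kB F →
    ∀ v ∈ ZP P ^ kA, ∀ w ∈ ZP (fun i => ¬ P i) ^ kB, ∀ A ∈ U2 N ^ (b - kA - kB),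
      Van b (F.curryLeft (w * (v * A)))) : Van b F := by
  have h1 : ∀ n kA kB, kA + kB ≤ b → (b - kB) * (b + 1) + (b - kA) < n → ∀ v ∈ ZP P ^ kA,
      ∀ w ∈ ZP (fun i => ¬ P i) ^ kB, ∀ A ∈ U2 N ^ (b - kA - kB),
      Van b (F.curryLeft (w * (v * A))) := by
    intro n
    induction n with
    | zero => intro kA kB _ hn; exact absurd hn (Nat.not_lt_zero _)
    | succ n ih =>
      intro kA kB hk hn
      apply h kA kB hk
      intro jA jB hj hjb
      apply ih jA jB hjb
      rcases hj with hj | ⟨rfl, hj⟩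
      · have h2 : (b - jB) * (b + 1) + (b + 1) ≤ (b - kB) * (b + 1) := by
          have : b - jB + 1 ≤ b - kB := by omega
          calc (b - jB) * (b + 1) + (b + 1) = (b - jB + 1) * (b + 1) := by ring
            _ ≤ _ := Nat.mul_le_mul_right _ this
        omega
      · omega
  intro Q hQ
  let W : Submodule ℂ (Sn N) :=
    LinearMap.ker ({ toFun := fun u => F.curryLeft u (fun i => Q i.succ)
                     map_add' := fun x y => by rw [map_add]; rfl
                     map_smul' := fun c x => by rw [map_smul]; rfl } : Sn N →ₗ[ℂ] ℂ)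
  have h2 : linS (N + 2) ^ b ≤ W := by
    apply linS_pow_le2 P
    intro kA kB hk v hv w hw A hA
    exact h1 _ kA kB hk (Nat.lt_succ_self _) v hv w hw A hA (fun i => Q i.succ)
      (fun i => hQ i.succ)
  have h3 : F.curryLeft (Q 0) (fun i => Q i.succ) = 0 := h2 (hQ 0)
  rw [MultilinearMap.curryLeft_apply] at h3
  rw [← h3]
  congr 1
  funext i
  refine Fin.cases ?_ (fun i => ?_) i
  · rfl
  · rfl

/-- Scaling of a curried form. -/
lemma curry_sc {m b t k : ℕ} {F : Fm N (m + 1)} (hH : HomP P b t F) {q : Sn N}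
    (hq : q ∈ linS (N + 2) ^ b) (hqk : ∀ c : ℂ, sc P c q = c ^ k • q) {c : ℂ} (hc : c ≠ 0)
    {Q : Fin m → Sn N} (hQ : Dg b Q) :
    c ^ k * F.curryLeft q (fun i => sc P c (Q i)) = c ^ t * F.curryLeft q Q := by
  have h1 := hH c hc (Fin.cons q Q) (by
    intro i
    refine Fin.cases ?_ (fun j => ?_) i
    · simpa using hq
    · simpa using hQ j)
  have h2 : (fun i : Fin (m + 1) => sc P c ((Fin.cons q Q : Fin (m + 1) → Sn N) i)) =
      Fin.cons (c ^ k • q) (fun i => sc P c (Q i)) := by
    funext i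
    refine Fin.cases ?_ (fun j => ?_) i
    · simp only [Fin.cons_zero]
      rw [hqk]
    · simp only [Fin.cons_succ]
  rw [h2] at h1
  have h3 := (F.curryLeft).map_smul (c ^ k) q
  have h4 : F (Fin.cons (c ^ k • q) (fun i => sc P c (Q i))) =
      c ^ k * F.curryLeft q (fun i => sc P c (Q i)) := by
    rw [← MultilinearMap.curryLeft_apply, h3, smul_apply, smul_eq_mul]
  rw [h4] at h1
  rw [h1, MultilinearMap.curryLeft_apply]

lemma curry_homP {m b t k : ℕ} (hkt : k ≤ t) {F : Fm N (m + 1)} (hH : HomP P b t F) {q : Sn N}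
    (hq : q ∈ linS (N + 2) ^ b) (hqk : ∀ c : ℂ, sc P c q = c ^ k • q) :
    HomP P b (t - k) (F.curryLeft q) := by
  intro c hc Q hQ
  have h1 := curry_sc P hH hq hqk hc hQ
  apply mul_left_cancel₀ (pow_ne_zero k hc)
  rw [h1, ← mul_assoc, ← pow_add, Nat.add_sub_cancel' hkt]

lemma curry_zeroP {m b t k : ℕ} (hkt : t < k) {F : Fm N (m + 1)} (hH : HomP P b t F) {q : Sn N}
    (hq : q ∈ linS (N + 2) ^ b) (hqk : ∀ c : ℂ, sc P c q = c ^ k • q) :
    Van b (F.curryLeft q) := by
  intro Q hQ
  exact weight_zero P hkt _ _ (fun c hc => curry_sc P hH hq hqk hc hQ)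

lemma sc_A {b kA kB : ℕ} {v w A : Sn N} (hv : v ∈ ZP P ^ kA)
    (hw : w ∈ ZP (fun i => ¬ P i) ^ kB) (hA : A ∈ U2 N ^ b) (c : ℂ) :
    sc P c (w * (v * A)) = c ^ kA • (w * (v * A)) := by
  rw [map_mul, map_mul, sc_pow P hv, sc_pow_of_disj P (fun _ h => h) hw, sc_U2 P c hA,
    smul_mul_assoc, mul_smul_comm]

lemma sc_B {b kA kB : ℕ} {v w A : Sn N} (hv : v ∈ ZP P ^ kA)
    (hw : w ∈ ZP (fun i => ¬ P i) ^ kB) (hA : A ∈ U2 N ^ b) (c : ℂ) :
    sc (fun i => ¬ P i) c (w * (v * A)) = c ^ kB • (w * (v * A)) := by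
  rw [map_mul, map_mul, sc_pow _ hw, sc_pow_of_disj (fun i => ¬ P i) (fun _ h => not_not.2 h) hv,
    sc_U2 _ c hA, smul_mul_assoc]

/-- The invariance of the curried form. -/
theorem curry_inv2 {m b kA kB : ℕ} (hk : kA + kB ≤ b) (F : Fm N (m + 1)) (hI : Inv b F)
    (hT : Top2 P b kA kB F) {v w A : Sn N} (hv : v ∈ ZP P ^ kA)
    (hw : w ∈ ZP (fun i => ¬ P i) ^ kB) (hA : A ∈ U2 N ^ (b - kA - kB)) :
    Inv b (F.curryLeft (w * (v * A))) := by
  have main : ∀ z ∈ ZZ N, (∀ j, j < b - kA - kB → ∀ B ∈ U2 N ^ (b - kA - kB - (j + 1)),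
      Van b (F.curryLeft (w * (v * (z ^ (j + 1) * B))))) →
      ∀ Q : Fin m → Sn N, Dg b Q →
      F.curryLeft (w * (v * A)) (fun i => sh N z (Q i)) = F.curryLeft (w * (v * A)) Q := by
    intro z hz hz0 Q hQ
    have hQ' : Dg b (fun i => sh N z (Q i)) := fun i => sh_mem hz (hQ i)
    obtain ⟨B, hB, hB'⟩ := sh_expand (z := z) (b - kA - kB) A hA
    have h1 := hI z hz (Fin.cons (w * (v * A)) Q) (by
      intro i
      refine Fin.cases ?_ (fun j => ?_) i
      · simpa using mul3_mem P hk hv hw hA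
      · simpa using hQ j)
    have h2 : (fun i : Fin (m + 1) => sh N z ((Fin.cons (w * (v * A)) Q : Fin (m + 1) → Sn N) i)) =
        Fin.cons (sh N z (w * (v * A))) (fun i => sh N z (Q i)) := by
      funext i
      refine Fin.cases ?_ (fun j => ?_) i
      · simp only [Fin.cons_zero]
      · simp only [Fin.cons_succ]
    rw [h2, ← MultilinearMap.curryLeft_apply, ← MultilinearMap.curryLeft_apply] at h1
    have h3 : sh N z (w * (v * A)) = w * (v * A) +
        ∑ j ∈ Finset.range (b - kA - kB), w * (v * (z ^ (j + 1) * B j)) := by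
      rw [map_mul, map_mul, sh_ZZ_pow (pow_le_pow_left' (ZP_le_ZZ _) _ hw),
        sh_ZZ_pow (pow_le_pow_left' (ZP_le_ZZ _) _ hv), hB', mul_add, Finset.mul_sum, mul_add,
        Finset.mul_sum]
    rw [h3, map_add, map_sum, add_apply, sum_apply] at h1
    rw [← h1]
    have h4 : ∑ j ∈ Finset.range (b - kA - kB), (F.curryLeft (w * (v * (z ^ (j + 1) * B j))))
        (fun i => sh N z (Q i)) = 0 := by
      apply Finset.sum_eq_zero
      intro j hj
      have hj' := Finset.mem_range.1 hj
      exact hz0 j hj' (B j) (hB j hj') _ hQ'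
    rw [h4, add_zero]
  apply inv_of_parts P
  · intro z hz
    apply main z (ZP_le_ZZ _ hz)
    intro j hj B hB
    have e1 : w * (v * (z ^ (j + 1) * B)) = w * ((v * z ^ (j + 1)) * B) := by ring
    rw [e1]
    refine hT (kA + (j + 1)) kB (Or.inr ⟨rfl, by omega⟩) (by omega) _ ?_ w hw B ?_
    · rw [pow_add]
      exact Submodule.mul_mem_mul hv (Submodule.pow_mem_pow _ hz _)
    · have h5 : b - (kA + (j + 1)) - kB = b - kA - kB - (j + 1) := by omega
      rw [h5]
      exact hB
  · intro z hz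
    apply main z (ZP_le_ZZ _ hz)
    intro j hj B hB
    have e1 : w * (v * (z ^ (j + 1) * B)) = (w * z ^ (j + 1)) * (v * B) := by ring
    rw [e1]
    refine hT kA (kB + (j + 1)) (Or.inl (by omega)) (by omega) v hv _ ?_ B ?_
    · rw [pow_add]
      exact Submodule.mul_mem_mul hw (Submodule.pow_mem_pow _ hz _)
    · have h5 : b - kA - (kB + (j + 1)) = b - kA - kB - (j + 1) := by omega
      rw [h5]
      exact hB

/-- Change of the line. -/
lemma Dev_shift {a b j : ℕ} {F : Fm N a} (hI : Inv (b + 1) F) {z y : Sn N} (hz : z ∈ ZZ N)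
    (hy : y ∈ ZZ N) (x : ℂ) {g : Fin a → Sn N} (hg : Dg b g) :
    Dev z j (ln N x + y) F g = Dev z j (ln N x) F (fun i => sh N (-y) (g i)) := by
  rw [Dev, Dev]
  apply Finset.sum_congr rfl
  intro I _
  rw [← hI (-y) ((ZZ N).neg_mem hy) (fun i => (if i ∈ I then z else ln N x + y) * g i) (by
    intro i
    rw [pow_succ']
    refine Submodule.mul_mem_mul ?_ (hg i)
    split_ifs
    · exact ZZ_le hz
    · exact line_mem hy x)]
  congr 1
  funext i
  rw [map_mul]
  by_cases hi : i ∈ I
  · rw [if_pos hi, if_pos hi, sh_Z hz]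
  · rw [if_neg hi, if_neg hi, map_add, sh_ln, sh_Z hy]
    congr 1
    abel

/-- `Top2` kills all arguments of larger light order. -/
lemma topB {m b kA kB : ℕ} {F : Fm N (m + 1)} (hT : Top2 P b kA kB F) {w : Sn N} {jB : ℕ}
    (hw : w ∈ ZP (fun i => ¬ P i) ^ jB) (hj : kB < jB) (hjb : jB ≤ b) {h : Sn N}
    (hh : h ∈ LA P ^ (b - jB)) : Van b (F.curryLeft (w * h)) := by
  intro Q hQ
  let W : Submodule ℂ (Sn N) :=
    LinearMap.ker ({ toFun := fun u => F.curryLeft (w * u) Q
                     map_add' := fun x y => by rw [mul_add, map_add]; rfl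
                     map_smul' := fun c x => by rw [mul_smul_comm, map_smul]; rfl } :
                       Sn N →ₗ[ℂ] ℂ)
  have h2 : LA P ^ (b - jB) ≤ W := by
    rw [LA]
    apply Vale.Agent.P181.R2.H940.sup_pow_le
    intro k hk
    rw [Submodule.mul_le]
    intro v hv A hA
    refine hT k jB (Or.inl hj) (by omega) v hv w hw A ?_ Q hQ
    have h5 : b - k - jB = b - jB - k := by omega
    rw [h5]
    exact hA
  exact h2 hh

/-- **Light step for the light variables.** -/
theorem lightB {m b kA kB : ℕ} {F : Fm N (m + 1)} (hI : Inv (b + 1) F)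
    (hT : Top2 P (b + 1) kA kB F)
    (hF : ∀ z ∈ ZP (fun i => ¬ P i), DZ (X 0) (X 1) z (linS (N + 2)) b 1 F) (hkb : kB ≤ b)
    (hc : m + kB < b + 2) {w : Sn N} (hw : w ∈ ZP (fun i => ¬ P i) ^ kB) {h : Sn N}
    (hh : h ∈ LA P ^ (b + 1 - kB)) {z : Sn N} (hz : z ∈ ZP (fun i => ¬ P i)) :
    DZ (X 0) (X 1) z (linS (N + 2)) b 1 (F.curryLeft (w * h)) := by
  intro j hj x g hg
  -- the complement of the line
  let C : Submodule ℂ (Sn N) := Submodule.span ℂ {(X 1 : Sn N)} ⊔ ZP P
  have hLA : LA P = Submodule.span ℂ {ln N x} ⊔ C := by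
    apply le_antisymm
    · rw [LA]
      apply sup_le
      · rw [U2, Submodule.span_le]
        rintro _ (rfl | rfl)
        · have e1 : (X 0 : Sn N) = ln N x + (-x) • X 1 := by
            rw [ln, neg_smul]; abel
          rw [e1]
          exact Submodule.add_mem _ (Submodule.mem_sup_left (Submodule.mem_span_singleton_self _))
            (Submodule.mem_sup_right (Submodule.mem_sup_left
              (Submodule.smul_mem _ _ (Submodule.mem_span_singleton_self _))))
        · exact Submodule.mem_sup_right (Submodule.mem_sup_left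
              (Submodule.mem_span_singleton_self _))
      · exact le_sup_right.trans le_sup_right
    · apply sup_le
      · rw [Submodule.span_le]
        rintro _ rfl
        exact Submodule.mem_sup_left (ln_mem_U2 x)
      · apply sup_le
        · rw [Submodule.span_le]
          rintro _ rfl
          exact Submodule.mem_sup_left (Submodule.subset_span (by simp))
        · exact le_sup_right
  have hCL : C ≤ LA P := by rw [hLA]; exact le_sup_right
  have hlnL : ln N x ∈ LA P := by
    rw [hLA]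
    exact Submodule.mem_sup_left (Submodule.mem_span_singleton_self _)
  let W : Submodule ℂ (Sn N) :=
    LinearMap.ker ({ toFun := fun u => Dev z j (lin (X 0) (X 1) x) (F.curryLeft (w * u)) g
                     map_add' := fun u v => by
                       rw [← DevL_apply, mul_add, map_add]; rfl
                     map_smul' := fun c u => by
                       rw [← DevL_apply, mul_smul_comm, map_smul]; rfl } : Sn N →ₗ[ℂ] ℂ)
  have key : ∀ ζ ∈ C, ∀ k, k ≤ b + 1 - kB → ζ ^ k * ln N x ^ (b + 1 - kB - k) ∈ W := by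
    intro ζ hζ k hk
    obtain ⟨u, hu, y, hy, rfl⟩ := Submodule.mem_sup.1 hζ
    obtain ⟨β, rfl⟩ := Submodule.mem_span_singleton.1 hu
    set ζ := β • (X 1 : Sn N) + y with hζdef
    have hζL : ζ ∈ LA P := hCL hζ
    have hpz : Submodule.span ℂ {ln N x, ζ} ≤ LA P := by
      rw [Submodule.span_le]
      rintro _ (rfl | rfl)
      · exact hlnL
      · exact hζL
    have hD : DZ (ln N x) ζ z (linS (N + 2)) b 1 F := by
      intro j hj x' g hg
      have e1 : lin (ln N x) ζ x' = ln N (x + x' * β) + x' • y := by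
        rw [lin, hζdef, ln, ln, smul_add, add_smul, smul_smul]
        abel
      rw [e1, Dev_shift hI (ZP_le_ZZ _ hz) (ZP_le_ZZ _ ((ZP P).smul_mem _ hy)) _ hg]
      exact hF z hz j hj (x + x' * β) _ (fun i => sh_mem
        ((ZZ N).neg_mem (ZP_le_ZZ _ ((ZP P).smul_mem _ hy))) (hg i))
    have h1 := lightG (p := ln N x) (q := ζ) (LA_le P hlnL) (LA_le P hζL) (ZP_le _ hz) hD hkb
      (pow_le_pow_left' (ZP_le _) _ hw) (by
        intro h' hh' g' hg'
        have h2 := topB P hT (w := w * z) (jB := kB + 1) (by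
          rw [pow_succ]; exact Submodule.mul_mem_mul hw hz) (by omega) (by omega) (h := h') (by
          have h3 : b + 1 - (kB + 1) = b - kB := by omega
          rw [h3]
          exact pow_le_pow_left' hpz _ hh') g' hg'
        exact h2) (by omega) (h := ζ ^ k * ln N x ^ (b + 1 - kB - k)) (by
        have h3 : Submodule.span ℂ {ln N x, ζ} ^ (b + 1 - kB) =
            Submodule.span ℂ {ln N x, ζ} ^ k *
              Submodule.span ℂ {ln N x, ζ} ^ (b + 1 - kB - k) := by
          rw [← pow_add]; congr 1; omega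
        rw [h3]
        exact Submodule.mul_mem_mul
          (Submodule.pow_mem_pow _ (Submodule.subset_span (by simp)) _)
          (Submodule.pow_mem_pow _ (Submodule.subset_span (by simp)) _))
    have h2 := h1 j hj 0 g hg
    have e2 : lin (ln N x) ζ 0 = lin (X 0) (X 1) x := by
      rw [lin, zero_smul, add_zero]
      rfl
    rw [e2] at h2
    exact h2
  have hW : LA P ^ (b + 1 - kB) ≤ W := by
    rw [hLA]
    apply Vale.Agent.P181.R2.H940.sup_pow_le
    intro k hk
    rw [Submodule.mul_le]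
    intro c hc l hl
    rw [Submodule.span_pow, Set.singleton_pow] at hl
    obtain ⟨r, rfl⟩ := Submodule.mem_span_singleton.1 hl
    have hc' := pow_le_span_pow _ _ hc
    clear hc
    induction hc' using Submodule.span_induction with
    | mem c hc =>
      obtain ⟨ζ, hζ, rfl⟩ := hc
      rw [mul_smul_comm]
      exact W.smul_mem _ (key ζ hζ k hk)
    | zero => rw [zero_mul]; exact W.zero_mem
    | add u v _ _ hu hv => rw [add_mul]; exact W.add_mem hu hv
    | smul c u _ hu => rw [smul_mul_assoc]; exact W.smul_mem _ hu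
  exact hW hh

/-- **Light step for the heavy variables.** -/
theorem lightA {m b s kA kB : ℕ} {F : Fm N (m + 1)} (hT : Top2 P (b + 1) kA kB F)
    (hF : ∀ y ∈ ZP P, DZ (X 0) (X 1) y (linS (N + 2)) b s F) (hkb : kA + kB ≤ b)
    (hc : m + (kA + kB) < b + 1 + s) {v w A : Sn N} (hv : v ∈ ZP P ^ kA)
    (hw : w ∈ ZP (fun i => ¬ P i) ^ kB) (hA : A ∈ U2 N ^ (b + 1 - kA - kB)) {y : Sn N}
    (hy : y ∈ ZP P) : DZ (X 0) (X 1) y (linS (N + 2)) b s (F.curryLeft (w * (v * A))) := by
  rw [← mul_assoc]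
  refine lightG (X_mem_linS _) (X_mem_linS _) (ZP_le _ hy) (hF y hy) hkb (w := w * v) ?_ ?_ hc ?_
  · rw [add_comm kA, pow_add]
    exact Submodule.mul_mem_mul (pow_le_pow_left' (ZP_le _) _ hw) (pow_le_pow_left' (ZP_le _) _ hv)
  · intro h hh g hg
    have e1 : w * v * y * h = w * ((v * y) * h) := by ring
    rw [e1]
    refine hT (kA + 1) kB (Or.inr ⟨rfl, by omega⟩) (by omega) (v * y) ?_ w hw h ?_ g hg
    · rw [pow_succ]
      exact Submodule.mul_mem_mul hv hy
    · have h5 : b + 1 - (kA + 1) - kB = b - (kA + kB) := by omega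
      rw [h5]
      exact hh
  · have h5 : b + 1 - (kA + kB) = b + 1 - kA - kB := by omega
    rw [h5]
    exact hA

end Vale.Agent.P181.H539.W
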