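import Vale.Agent.P181.R2.H280.NDefs
import Vale.Agent.P181.R2.H866.NHL

/-!
# P181 (weighted tail slopes): heavy and light variables

`P : Fin N → Prop` marks the heavy ones among the last `N` variables; the others are light.
-/

set_option autoImplicit false

open MvPolynomial

namespace Vale.Agent.P181.H539.W

open Vale.Agent.P181 Vale.Agent.P181.H536 Vale.Agent.P181.H280 Vale.Agent.P181.TN
open Vale.Agent.P181.R2.H866

variable {N : ℕ}

/-- The span of the variables marked by `P`. -/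
noncomputable def ZP (P : Fin N → Prop) : Submodule ℂ (Sn N) :=
  Submodule.span ℂ {y | ∃ i, P i ∧ (X i.succ.succ : Sn N) = y}

/-- Scaling of the variables marked by `P`. -/
noncomputable def sc (P : Fin N → Prop) [DecidablePred P] (c : ℂ) : Sn N →ₐ[ℂ] Sn N :=
  aeval (Fin.cons (X 0) (Fin.cons (X 1)
    (fun i : Fin N => if P i then c • X i.succ.succ else X i.succ.succ)))

/-- Homogeneity in the variables marked by `P`. -/
def HomP (P : Fin N → Prop) [DecidablePred P] (b t : ℕ) {a : ℕ} (F : Fm N a) : Prop :=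
  ∀ c : ℂ, c ≠ 0 → ∀ Q : Fin a → Sn N, Dg b Q → F (fun i => sc P c (Q i)) = c ^ t * F Q

/-- The kernel statement with two weights. -/
def KW (P : Fin N → Prop) [DecidablePred P] (a b tA tB : ℕ) : Prop :=
  ∀ F : Fm N a, IsSymm F → Inv b F → HomP P b tA F → HomP (fun i => ¬ P i) b tB F →
    IsK (linS (N + 2)) b F → Van b F

variable (P : Fin N → Prop) [DecidablePred P]

lemma ZP_le_ZZ : ZP P ≤ ZZ N := by
  rw [ZP, ZZ, Submodule.span_le]
  rintro _ ⟨i, _, rfl⟩
  exact Submodule.subset_span ⟨i, rfl⟩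

lemma ZP_le : ZP P ≤ linS (N + 2) := (ZP_le_ZZ P).trans ZZ_le

lemma X_mem_ZP {i : Fin N} (h : P i) : (X i.succ.succ : Sn N) ∈ ZP P :=
  Submodule.subset_span ⟨i, h, rfl⟩

lemma ZZ_eq : ZZ N = ZP P ⊔ ZP (fun i => ¬ P i) := by
  apply le_antisymm
  · rw [ZZ, Submodule.span_le]
    rintro _ ⟨i, rfl⟩
    by_cases h : P i
    · exact Submodule.mem_sup_left (X_mem_ZP P h)
    · exact Submodule.mem_sup_right (X_mem_ZP (fun i => ¬ P i) h)
  · exact sup_le (ZP_le_ZZ _) (ZP_le_ZZ _)

lemma sc_zero (c : ℂ) : sc P c (X 0) = X 0 := by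
  rw [sc, aeval_X, Fin.cons_zero]

lemma sc_one (c : ℂ) : sc P c (X 1) = X 1 := by
  rw [sc, aeval_X]
  rfl

lemma sc_succ (c : ℂ) (i : Fin N) :
    sc P c (X i.succ.succ) = if P i then c • X i.succ.succ else X i.succ.succ := by
  rw [sc, aeval_X, Fin.cons_succ, Fin.cons_succ]

lemma sc_Z {z : Sn N} (hz : z ∈ ZP P) (c : ℂ) : sc P c z = c • z := by
  rw [ZP] at hz
  induction hz using Submodule.span_induction with
  | mem x hx =>
    obtain ⟨i, hi, rfl⟩ := hx
    rw [sc_succ, if_pos hi]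
  | zero => rw [map_zero, smul_zero]
  | add x y _ _ hx hy => rw [map_add, hx, hy, smul_add]
  | smul r x _ hx => rw [map_smul, hx, smul_comm]

lemma sc_Z_of_disj {P' : Fin N → Prop} (hP : ∀ i, P' i → ¬ P i) {z : Sn N} (hz : z ∈ ZP P')
    (c : ℂ) : sc P c z = z := by
  rw [ZP] at hz
  induction hz using Submodule.span_induction with
  | mem x hx =>
    obtain ⟨i, hi, rfl⟩ := hx
    rw [sc_succ, if_neg (hP i hi)]
  | zero => rw [map_zero]
  | add x y _ _ hx hy => rw [map_add, hx, hy]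
  | smul r x _ hx => rw [map_smul, hx]

lemma sc_U {u : Sn N} (hu : u ∈ U2 N) (c : ℂ) : sc P c u = u := by
  obtain ⟨α, β, rfl⟩ := Submodule.mem_span_pair.1 hu
  rw [map_add, map_smul, map_smul, sc_zero, sc_one]

lemma sc_ln (c : ℂ) (x : ℂ) : sc P c (ln N x) = ln N x := sc_U P (ln_mem_U2 x) c

/-- An algebra map which fixes a submodule fixes its powers. -/
lemma fix_pow {A : Type*} [CommRing A] [Algebra ℂ A] {L : Submodule ℂ A} {g : A →ₐ[ℂ] A}
    (h : ∀ u ∈ L, g u = u) {d : ℕ} {y : A} (hy : y ∈ L ^ d) : g y = y := by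
  induction d generalizing y with
  | zero =>
    rw [pow_zero, Submodule.mem_one] at hy
    obtain ⟨r, rfl⟩ := hy
    exact AlgHom.commutes _ _
  | succ d ih =>
    rw [pow_succ] at hy
    induction hy using Submodule.mul_induction_on' with
    | mem_mul_mem x hx y hy => rw [map_mul, ih hx, h _ hy]
    | add x _ y _ hx hy => rw [map_add, hx, hy]

/-- An algebra map which scales a submodule scales its powers. -/
lemma scale_pow {A : Type*} [CommRing A] [Algebra ℂ A] {L : Submodule ℂ A} {g : A →ₐ[ℂ] A} {c : ℂ}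
    (h : ∀ u ∈ L, g u = c • u) {d : ℕ} {y : A} (hy : y ∈ L ^ d) : g y = c ^ d • y := by
  induction d generalizing y with
  | zero =>
    rw [pow_zero, Submodule.mem_one] at hy
    obtain ⟨r, rfl⟩ := hy
    rw [pow_zero, one_smul]
    exact AlgHom.commutes _ _
  | succ d ih =>
    rw [pow_succ] at hy
    induction hy using Submodule.mul_induction_on' with
    | mem_mul_mem x hx y hy =>
      rw [map_mul, ih hx, h _ hy, smul_mul_assoc, mul_smul_comm, smul_smul, pow_succ]
    | add x _ y _ hx hy => rw [map_add, hx, hy, smul_add]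

lemma sc_pow {d : ℕ} {w : Sn N} (hw : w ∈ ZP P ^ d) (c : ℂ) : sc P c w = c ^ d • w :=
  scale_pow (fun _ hu => sc_Z P hu c) hw

lemma sc_pow_of_disj {P' : Fin N → Prop} (hP : ∀ i, P' i → ¬ P i) {d : ℕ} {w : Sn N}
    (hw : w ∈ ZP P' ^ d) (c : ℂ) : sc P c w = w :=
  fix_pow (fun _ hu => sc_Z_of_disj P hP hu c) hw

lemma sc_U2 {d : ℕ} (c : ℂ) {A : Sn N} (hA : A ∈ U2 N ^ d) : sc P c A = A :=
  fix_pow (fun _ hu => sc_U P hu c) hA

lemma sc_mem {d : ℕ} (c : ℂ) {Q : Sn N} (hQ : Q ∈ linS (N + 2) ^ d) :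
    sc P c Q ∈ linS (N + 2) ^ d := by
  have h1 : (linS (N + 2) ^ d).map (sc P c).toLinearMap ≤ linS (N + 2) ^ d := by
    rw [Submodule.map_pow]
    apply pow_le_pow_left'
    rw [linS_eq, ZZ_eq P, Submodule.map_sup, Submodule.map_sup, sup_le_iff, sup_le_iff]
    refine ⟨?_, ?_, ?_⟩
    · rintro _ ⟨u, hu, rfl⟩
      change sc P c u ∈ _
      rw [sc_U P hu]
      exact Submodule.mem_sup_left hu
    · rintro _ ⟨z, hz, rfl⟩
      change sc P c z ∈ _
      rw [sc_Z P hz]
      exact Submodule.mem_sup_right (Submodule.mem_sup_left (Submodule.smul_mem _ _ hz))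
    · rintro _ ⟨z, hz, rfl⟩
      change sc P c z ∈ _
      rw [sc_Z_of_disj P (fun _ h => h) hz]
      exact Submodule.mem_sup_right (Submodule.mem_sup_right hz)
  exact h1 ⟨Q, hQ, rfl⟩

/-- `sc` of both kinds is the scaling of all last variables. -/
lemma sc_sc (c : ℂ) (Q : Sn N) : sc P c (sc (fun i => ¬ P i) c Q) = scal N c Q := by
  have h : (sc P c).comp (sc (fun i => ¬ P i) c) = scal N c := by
    apply MvPolynomial.algHom_ext
    intro i
    rw [AlgHom.comp_apply]
    refine Fin.cases ?_ (fun i => ?_) i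
    · rw [sc_zero, sc_zero, scal_zero]
    · refine Fin.cases ?_ (fun i => ?_) i
      · exact ((congrArg (sc P c) (sc_one _ c)).trans (sc_one _ c)).trans (scal_one c).symm
      · rw [sc_succ, scal_succ]
        by_cases h : P i
        · rw [if_neg (not_not.2 h), sc_succ, if_pos h]
        · rw [if_pos h, map_smul, sc_succ, if_neg h]
  exact congrArg (fun g : Sn N →ₐ[ℂ] Sn N => g Q) h

lemma HomP_total {b tA tB a : ℕ} {F : Fm N a} (hA : HomP P b tA F)
    (hB : HomP (fun i => ¬ P i) b tB F) : Hom b (tA + tB) F := by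
  intro c hc Q hQ
  have h1 := hA c hc (fun i => sc (fun i => ¬ P i) c (Q i)) (fun i => sc_mem _ c (hQ i))
  rw [hB c hc Q hQ] at h1
  simp only [sc_sc] at h1
  rw [h1, pow_add, mul_assoc]

lemma KW_of_KK {a b tA tB : ℕ} (h : KK N a b (tA + tB)) : KW P a b tA tB :=
  fun F hs hI hA hB hK => h F hs hI (HomP_total P hA hB) hK

/-- Both kinds of invariance give invariance. -/
lemma inv_of_parts {b a : ℕ} {F : Fm N a}
    (h1 : ∀ z ∈ ZP P, ∀ Q : Fin a → Sn N, Dg b Q → F (fun i => sh N z (Q i)) = F Q)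
    (h2 : ∀ z ∈ ZP (fun i => ¬ P i), ∀ Q : Fin a → Sn N, Dg b Q →
      F (fun i => sh N z (Q i)) = F Q) : Inv b F := by
  intro z hz Q hQ
  rw [ZZ_eq P] at hz
  obtain ⟨y, hy, w, hw, rfl⟩ := Submodule.mem_sup.1 hz
  have h3 : ∀ q : Sn N, sh N (y + w) q = sh N y (sh N w q) := by
    intro q
    have h : sh N (y + w) = (sh N y).comp (sh N w) := by
      apply MvPolynomial.algHom_ext
      intro i
      rw [AlgHom.comp_apply]
      refine Fin.cases ?_ (fun i => ?_) i
      · rw [sh_X0, sh_X0, map_add, sh_X0, sh_Z (ZP_le_ZZ _ hw)]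
        abel
      · refine Fin.cases ?_ (fun i => ?_) i
        · exact (sh_X1 _).trans (((congrArg (sh N y) (sh_X1 w)).trans (sh_X1 y)).symm)
        · rw [shr_succ, shr_succ, shr_succ]
    exact congrArg (fun g : Sn N →ₐ[ℂ] Sn N => g q) h
  simp only [h3]
  rw [h1 y hy _ (fun i => sh_mem (ZP_le_ZZ _ hw) (hQ i)), h2 w hw Q hQ]

end Vale.Agent.P181.H539.W
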