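import Mathlib

/-!
# P181 (weighted tail slopes): the recursion
-/

set_option autoImplicit false

namespace Vale.Agent.P181.H539.W

/-- The condition at slope `s + 1`. -/
def CW (n M s b tA tB : ℕ) : Prop :=
  tA + (2 * M + min tB M) * (s + n + 1).choose (n + 1) + (s + 1) * tB ≤
    (s + 1) * (b + min tB M) + M

lemma choose_ge (n s : ℕ) : s + 1 ≤ (s + n + 1).choose (n + 1) := by
  induction n with
  | zero => simp
  | succ n ih =>
    have h : (s + (n + 1) + 1).choose (n + 1 + 1) =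
        (s + n + 1).choose (n + 1) + (s + n + 1).choose (n + 1 + 1) := by
      have : s + (n + 1) + 1 = (s + n + 1) + 1 := by ring
      rw [this, Nat.choose_succ_succ]
    rw [h]
    omega

lemma CW_mono_b {n M s b tA tB tA' tB' : ℕ} (h : CW n M s b tA tB) (hA : tA' ≤ tA)
    (hB : tB' ≤ tB) : CW n M s b tA' tB' := by
  unfold CW at *
  have hc := choose_ge n s
  obtain ⟨c, hc'⟩ : ∃ c, (s + n + 1).choose (n + 1) = (s + 1) + c := ⟨_, (Nat.add_sub_cancel' hc).symm⟩
  rw [hc'] at h ⊢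
  have h1 : min tB' M ≤ min tB M := min_le_min_right _ hB
  obtain ⟨d, hd⟩ : ∃ d, min tB M = min tB' M + d := ⟨_, (Nat.add_sub_cancel' h1).symm⟩
  obtain ⟨f, hf⟩ : ∃ f, tB = tB' + f := ⟨_, (Nat.add_sub_cancel' hB).symm⟩
  obtain ⟨g, hg⟩ : ∃ g, tA = tA' + g := ⟨_, (Nat.add_sub_cancel' hA).symm⟩
  rw [hd] at h
  subst hf hg
  nlinarith [Nat.zero_le (d * c), Nat.zero_le ((s + 1) * f), Nat.zero_le g]

lemma CW_step {n M s b tA tB i l : ℕ} (h : CW n M s (b + 1) tA tB) (hi : i ≤ tA) (hl : l ≤ tB)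
    (hil : s + 1 ≤ i ∨ 1 ≤ l) : CW n M s b (tA - i) (tB - l) := by
  unfold CW at *
  have hc := choose_ge n s
  obtain ⟨c, hc'⟩ : ∃ c, (s + n + 1).choose (n + 1) = (s + 1) + c := ⟨_, (Nat.add_sub_cancel' hc).symm⟩
  rw [hc'] at h ⊢
  have h1 : min (tB - l) M ≤ min tB M := min_le_min_right _ (Nat.sub_le _ _)
  obtain ⟨d, hd⟩ : ∃ d, min tB M = min (tB - l) M + d := ⟨_, (Nat.add_sub_cancel' h1).symm⟩
  obtain ⟨f, hf⟩ : ∃ f, tB = l + f := ⟨_, (Nat.add_sub_cancel' hl).symm⟩
  obtain ⟨g, hg⟩ : ∃ g, tA = i + g := ⟨_, (Nat.add_sub_cancel' hi).symm⟩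
  rw [hd] at h
  subst hf hg
  rw [Nat.add_sub_cancel_left] at *
  rw [Nat.add_sub_cancel_left]
  rcases hil with hi' | hl'
  · obtain ⟨i', rfl⟩ : ∃ i', i = s + 1 + i' := ⟨i - (s + 1), by omega⟩
    nlinarith [Nat.zero_le (d * c), Nat.zero_le ((s + 1) * l), Nat.zero_le i']
  · obtain ⟨l', rfl⟩ : ∃ l', l = 1 + l' := ⟨l - 1, by omega⟩
    nlinarith [Nat.zero_le (d * c), Nat.zero_le ((s + 1) * l'), Nat.zero_le i]

lemma num1 {n M s b tA tB m C D : ℕ} (hm : m ≤ M) (hD : 1 ≤ D)
    (hrel : (n + 1) * C = (s + 1) * D)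
    (h1 : (s + 1) * (b + 1 + tB) + M < tA + (2 * M + tB) * C + (s + 1) * tB)
    (h : tA + (2 * M + tB) * (D + C) + (s + 1 + 1) * tB ≤ (s + 1 + 1) * (b + 1 + tB) + M) :
    2 * M + tB ≤ b ∧ m ≤ tA ∧ n * ((s + 1) * (b + 1)) < (n + 1) * (tA - m) ∧
      n * ((s + 1) * (b + 1)) + (m + 1) < (n + 1) * tA := by
  have h8 : (2 * M + tB) * D < b + 1 := by nlinarith
  have h9 : (2 * M + tB) * 1 ≤ (2 * M + tB) * D := Nat.mul_le_mul_left _ hD
  have h10 : (s + 1) * (b + 1) + M + 1 ≤ tA + (2 * M + tB) * C := by nlinarith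
  have h11 : (n + 1) * ((s + 1) * (b + 1) + M + 1) ≤ (n + 1) * (tA + (2 * M + tB) * C) :=
    Nat.mul_le_mul_left _ h10
  have h12 : (n + 1) * ((2 * M + tB) * C) = (s + 1) * ((2 * M + tB) * D) := by
    calc (n + 1) * ((2 * M + tB) * C) = (2 * M + tB) * ((n + 1) * C) := by ring
      _ = (2 * M + tB) * ((s + 1) * D) := by rw [hrel]
      _ = _ := by ring
  have h13 : (s + 1) * ((2 * M + tB) * D) ≤ (s + 1) * b :=
    Nat.mul_le_mul_left _ (by omega)
  have h14 : n * ((s + 1) * (b + 1)) + (n + 1) * (M + 1) + (s + 1) ≤ (n + 1) * tA := by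
    have e1 : (n + 1) * ((s + 1) * (b + 1) + M + 1) =
        n * ((s + 1) * (b + 1)) + (n + 1) * (M + 1) + ((s + 1) * b + (s + 1)) := by ring
    have e2 : (n + 1) * (tA + (2 * M + tB) * C) =
        (n + 1) * tA + (n + 1) * ((2 * M + tB) * C) := by ring
    rw [e1, e2, h12] at h11
    omega
  have h18 : (n + 1) * m ≤ (n + 1) * M := Nat.mul_le_mul_left _ hm
  have h19 : (n + 1) * (M + 1) = (n + 1) * M + (n + 1) := by ring
  have h15 : m ≤ tA := by
    by_contra hcon
    push Not at hcon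
    have h16 : (n + 1) * tA ≤ (n + 1) * m := Nat.mul_le_mul_left _ (by omega)
    omega
  have h20 : m ≤ (n + 1) * m := Nat.le_mul_of_pos_left _ (Nat.succ_pos n)
  refine ⟨by omega, h15, ?_, ?_⟩
  · have h17 : (n + 1) * (tA - m) + (n + 1) * m = (n + 1) * tA := by
      rw [← Nat.mul_add]; congr 1; omega
    omega
  · omega

lemma num2 {M s b tA tB m C τ : ℕ} (hM : 1 ≤ M) (hm : m ≤ M) (hC : s + 1 + 1 ≤ C) (hτ : τ ≤ tB)
    (h7 : m + 1 ≤ τ ∨ (M = m ∧ τ = M))
    (h : tA + (2 * M + τ) * C + (s + 1 + 1) * tB ≤ (s + 1 + 1) * (b + 1 + τ) + M) :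
    2 * m ≤ b + 1 := by
  have h4 : (s + 1 + 1) * (2 * M + τ) ≤ (2 * M + τ) * C := by
    rw [mul_comm]; exact Nat.mul_le_mul_left _ hC
  have h5 : (s + 1 + 1) * τ ≤ (s + 1 + 1) * tB := Nat.mul_le_mul_left _ hτ
  have h6 : (s + 1 + 1) * (2 * M + τ) ≤ (s + 1 + 1) * (b + 1) + M := by
    have e1 : (s + 1 + 1) * (b + 1 + τ) = (s + 1 + 1) * (b + 1) + (s + 1 + 1) * τ := by ring
    omega
  by_contra hcon
  push Not at hcon
  have h9 : (s + 1 + 1) * (b + 2) ≤ (s + 1 + 1) * (2 * m) := Nat.mul_le_mul_left _ (by omega)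
  have e2 : (s + 1 + 1) * (b + 2) = (s + 1 + 1) * (b + 1) + (s + 1 + 1) := by ring
  have h10 : (s + 1 + 1) * (2 * M + τ) + (s + 1 + 1) ≤ (s + 1 + 1) * (2 * m) + M := by omega
  rcases h7 with h7 | ⟨h7, h8⟩
  · have h11 : (s + 1 + 1) * (2 * M + (m + 1)) ≤ (s + 1 + 1) * (2 * M + τ) :=
      Nat.mul_le_mul_left _ (by omega)
    nlinarith
  · subst h7 h8
    nlinarith

section
variable (n M : ℕ) (hM : 1 ≤ M) (K : ℕ → ℕ → ℕ → ℕ → Prop)
  (tree : ∀ a b tA tB, tA + tB + M ≤ b → a ≤ M + 1 → K a b tA tB)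
  (zero : ∀ b tA tB, K 0 b tA tB)
  (step : ∀ s m b tA tB, 2 ≤ s → m ≤ b → 2 * m ≤ b + 1 →
    (∀ tA' tB', tA' ≤ tA → tB' ≤ tB → K m (b + 1) tA' tB') →
    (∀ i l, s ≤ i ∨ 1 ≤ l → i ≤ tA → l ≤ tB → K (m + 1) b (tA - i) (tB - l)) →
    (tB ≤ m → 2 * m + tB ≤ b + 1 ∧ m ≤ tA ∧
      n * ((s - 1) * (b + 1)) < (n + 1) * (tA - m) ∧
      n * ((s - 1) * (b + 1)) + (m + 1) < (n + 1) * tA) → K (m + 1) (b + 1) tA tB)

include hM tree zero step in
/-- **the recursion** -/
theorem recW : ∀ s a b tA tB, a ≤ M + 1 → CW n M s b tA tB → K a b tA tB := by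
  intro s
  induction s with
  | zero =>
    intro a b tA tB ha h
    unfold CW at h
    simp only [zero_add, Nat.choose_self, mul_one, one_mul] at h
    exact tree a b tA tB (by omega) ha
  | succ s ihs =>
    intro a b
    induction b generalizing a with
    | zero =>
      intro tA tB ha h
      exfalso
      unfold CW at h
      have hc := choose_ge n (s + 1)
      have h1 : min tB M ≤ tB := min_le_left _ _
      have h2 : (2 * M + min tB M) * 1 ≤ (2 * M + min tB M) * (s + 1 + n + 1).choose (n + 1) :=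
        Nat.mul_le_mul_left _ (by omega)
      have h3 : (s + 1 + 1) * (0 + min tB M) ≤ (s + 1 + 1) * tB := Nat.mul_le_mul_left _ (by omega)
      omega
    | succ b ihb =>
      induction a with
      | zero => intro tA tB _ _; exact zero _ _ _
      | succ m ihm =>
        intro tA tB ha h
        by_cases h1 : CW n M s (b + 1) tA tB
        · exact ihs (m + 1) (b + 1) tA tB ha h1
        have hm : m ≤ M := by omega
        have hcg := choose_ge n (s + 1)
        have hcc : (s + 1 + n + 1).choose (n + 1) =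
            (s + n + 1).choose n + (s + n + 1).choose (n + 1) := by
          have : s + 1 + n + 1 = (s + n + 1) + 1 := by ring
          rw [this, Nat.choose_succ_succ]
        have hrel : (n + 1) * (s + n + 1).choose (n + 1) = (s + 1) * (s + n + 1).choose n := by
          have h := Nat.choose_succ_right_eq (s + n + 1) n
          have h2 : s + n + 1 - n = s + 1 := by omega
          rw [h2] at h
          linarith
        have hch : 1 ≤ (s + n + 1).choose n := Nat.choose_pos (by omega)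
        have hnum : tB ≤ m → 2 * M + tB ≤ b ∧ m ≤ tA ∧
            n * ((s + 1) * (b + 1)) < (n + 1) * (tA - m) ∧
            n * ((s + 1) * (b + 1)) + (m + 1) < (n + 1) * tA := by
          intro htB
          unfold CW at h1 h
          push Not at h1
          have h7 : min tB M = tB := min_eq_left (by omega)
          rw [h7] at h1 h
          rw [hcc] at h
          exact num1 hm hch hrel h1 h
        have h2m : 2 * m ≤ b + 1 := by
          by_cases htB : tB ≤ m
          · have := (hnum htB).1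
            omega
          · unfold CW at h
            refine num2 hM hm hcg (min_le_left _ _) ?_ h
            rcases Nat.lt_or_ge m M with h8 | h8
            · left; exact le_min (by omega) h8
            · right; exact ⟨by omega, min_eq_right (by omega)⟩
        refine step (s + 2) m b tA tB (by omega) (by omega) h2m ?_ ?_ ?_
        · intro tA' tB' hA' hB'
          exact ihm tA' tB' (by omega) (CW_mono_b h hA' hB')
        · intro i l hil hi hl
          exact ihb (m + 1) (tA - i) (tB - l) ha (CW_step h hi hl hil)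
        · intro htB
          obtain ⟨h2, h3, h4, h5⟩ := hnum htB
          exact ⟨by omega, h3, h4, h5⟩

end

end Vale.Agent.P181.H539.W
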