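import Vale.Agent.P181.H539.W.Step
import Vale.Agent.P181.H539.W.Rec
import Vale.Agent.P181.R2.H940.NTree
import Vale.Agent.P181.R2.H780.Inv

/-!
# P181 (weighted tail slopes): the theorem
-/

set_option autoImplicit false

open scoped TensorProduct

namespace Vale.Agent.P181.H539.W

open MvPolynomial Vale.Agent.P181 Vale.Agent.P181.H536 Vale.Agent.P181.H280 Vale.Agent.P181.TN
open Vale.Agent.P181.H780

variable {N : ℕ} (P : Fin N → Prop) [DecidablePred P]

theorem KW_all {n M a b tA tB : ℕ} {e : Fin n → Fin N} (he : Enum P n e) (hM : 1 ≤ M)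
    (ha : a ≤ M + 1) (h : ∃ s, CW n M s b tA tB) : KW P a b tA tB := by
  obtain ⟨s, h⟩ := h
  exact recW n M hM (KW P) (fun a b tA tB h ha => KW_of_KK P (tree hM h ha)) (zeroW P)
    (fun s m b tA tB hs hmb h2m h1 h2 h3 => stepW P he hs hmb h2m h1 h2 h3) s a b tA tB ha h

/-- The diagonal matrix of the scaling. -/
def dmat (t : ℂ) : Fin (N + 2) → ℂ := Fin.cons 1 (Fin.cons 1 (fun i => if P i then t else 1))

lemma dmat_borel {t : ℂ} (ht : t ≠ 0) : IsBorel (Matrix.diagonal (dmat P t)) := by
  constructor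
  · intro i j hij
    exact Matrix.diagonal_apply_ne _ (ne_of_gt hij)
  · intro i
    rw [Matrix.diagonal_apply_eq]
    refine Fin.cases ?_ (fun i => ?_) i
    · exact one_ne_zero
    · refine Fin.cases ?_ (fun i => ?_) i
      · exact one_ne_zero
      · change (if P i then t else 1) ≠ 0
        split_ifs
        · exact ht
        · exact one_ne_zero

lemma dmat_prod (t : ℂ) (lam : Fin (N + 2) → ℕ) :
    ∏ i, Matrix.diagonal (dmat P t) i i ^ lam i =
      t ^ (∑ i : Fin N, if P i then lam i.succ.succ else 0) := by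
  simp only [Matrix.diagonal_apply_eq]
  rw [Fin.prod_univ_succ, Fin.prod_univ_succ]
  have h0 : dmat P t 0 = 1 := rfl
  have h1 : dmat P t (Fin.succ 0) = 1 := rfl
  have h2 : ∀ i : Fin N, dmat P t i.succ.succ ^ lam i.succ.succ =
      t ^ (if P i then lam i.succ.succ else 0) := by
    intro i
    change (if P i then t else 1) ^ lam i.succ.succ = _
    split_ifs
    · rfl
    · rw [one_pow, pow_zero]
  rw [h0, h1, one_pow, one_pow, one_mul, one_mul, Finset.prod_congr rfl fun i _ => h2 i,
    Finset.prod_pow_eq_pow_sum]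

/-- Homogeneity of the form of a highest weight vector for the scaling of some variables. -/
theorem formOf_sc {a b : ℕ} (lam : Fin (N + 2) → ℕ)
    (l : (Fin a → Fin b → (Fin (N + 2) → ℂ)) →₀ ℂ)
    (hx : elOf l ∈ hwSpace lam (plethAct a b (N + 2)))
    (t : ℂ) (ht : t ≠ 0) (Q : Fin a → MvPolynomial (Fin (N + 2)) ℂ)
    (hQ : ∀ i, Q i ∈ linS (N + 2) ^ b) :
    formOf l (fun i => sc P t (Q i)) =
      t ^ (∑ i : Fin N, if P i then lam i.succ.succ else 0) * formOf l Q := by
  set r := ∑ i : Fin N, if P i then lam i.succ.succ else 0 with hr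
  have hM : ∀ c : Fin (N + 2), evL (N + 2) (sc P t (X c)) =
      fun v => (Matrix.toLin' (Matrix.diagonal (dmat P t)) v) c := by
    intro c
    funext v
    rw [Matrix.toLin'_apply, Matrix.mulVec_diagonal]
    refine Fin.cases ?_ (fun c => ?_) c
    · rw [sc_zero, evL_X]
      change v 0 = 1 * v 0
      rw [one_mul]
    · refine Fin.cases ?_ (fun c => ?_) c
      · change evL (N + 2) (sc P t (X 1)) v = 1 * v 1
        rw [sc_one, evL_X, one_mul]
      · rw [sc_succ]
        change _ = (if P c then t else 1) * v c.succ.succ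
        split_ifs
        · rw [map_smul, evL_X]
          rfl
        · rw [evL_X, one_mul]
  let Φ : MultilinearMap ℂ (fun _ : Fin a => MvPolynomial (Fin (N + 2)) ℂ) ℂ :=
    comp (formOf l) (sc P t) - t ^ r • formOf l
  have hΦ : Φ Q = 0 := by
    apply multilinear_zero_of_span Φ
      (Set.range (fun c : Fin b → Fin (N + 2) => ∏ j, (X (c j) : MvPolynomial (Fin (N + 2)) ℂ)))
    · intro w hw
      choose c hc using hw
      have hw' : w = fun i => ∏ j, X (c i j) := by
        funext i; exact (hc i).symm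
      have h1 := formOf_act lam l hx (Matrix.diagonal (dmat P t)) c
        (fun i j => sc P t (X (c i j))) (dmat_borel P ht) (fun i j => hM (c i j))
      rw [dmat_prod] at h1
      rw [hw']
      have h2 : Φ (fun i => ∏ j, X (c i j)) =
          formOf l (fun i => sc P t (∏ j, X (c i j))) -
            t ^ r * formOf l (fun i => ∏ j, X (c i j)) := rfl
      rw [h2]
      simp only [map_prod]
      rw [h1, sub_self]
    · intro i
      exact span_pow_eq _ _ (hQ i)
  have h1 : Φ Q = formOf l (fun i => sc P t (Q i)) - t ^ r * formOf l Q := rfl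
  rw [h1, sub_eq_zero] at hΦ
  exact hΦ

/-- Injectivity on highest weight vectors. -/
theorem injOn_of_KW {a b : ℕ} (lam : Fin (N + 2) → ℕ)
    (hK : KW P a b (∑ i : Fin N, if P i then lam i.succ.succ else 0)
      (∑ i : Fin N, if ¬ P i then lam i.succ.succ else 0)) (x : Pleth a b (N + 2))
    (hx : x ∈ hwSpace lam (plethAct a b (N + 2)))
    (h0 : foulkesHowe a b (Fin (N + 2) → ℂ) x = 0) : x = 0 := by
  obtain ⟨l, rfl⟩ := exists_elOf x
  apply elOf_eq_zero
  refine hK (formOf l) (formOf_symm l) ?_ ?_ ?_ (isK_formOf l h0)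
  · intro z hz Q hQ
    exact formOf_shear (n := N) lam l hx (sh N z) (isShear_sh hz) Q hQ
  · intro c hc Q hQ
    exact formOf_sc P lam l hx c hc Q hQ
  · intro c hc Q hQ
    exact formOf_sc (fun i => ¬ P i) lam l hx c hc Q hQ

theorem plethMult_of_KW {a b : ℕ} (lam : Fin (N + 2) → ℕ)
    (hK : KW P a b (∑ i : Fin N, if P i then lam i.succ.succ else 0)
      (∑ i : Fin N, if ¬ P i then lam i.succ.succ else 0)) :
    plethMult a b (N + 2) lam ≤ plethMult b a (N + 2) lam :=
  finrank_le_of_inj (foulkesHowe a b (Fin (N + 2) → ℂ)) _ _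
    (fun x hx => foulkesHowe_hwSpace lam x hx)
    (fun x hx h0 => injOn_of_KW P lam hK x hx h0)

/-- **Weighted tail slopes.** The first `n` rows below row two are heavy, the others light. -/
theorem weighted {a b n p : ℕ} (ha : 2 ≤ a) (lam : Fin (n + p + 2) → ℕ)
    (h : ∃ s, 1 ≤ s ∧ (∑ i : Fin n, lam (Fin.castAdd p i).succ.succ) +
      (2 * (a - 1) + min (∑ j : Fin p, lam (Fin.natAdd n j).succ.succ) (a - 1)) *
        (s + n).choose (n + 1) + s * (∑ j : Fin p, lam (Fin.natAdd n j).succ.succ) ≤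
      s * (b + min (∑ j : Fin p, lam (Fin.natAdd n j).succ.succ) (a - 1)) + (a - 1)) :
    (∀ x ∈ hwSpace lam (plethAct a b (n + p + 2)),
      foulkesHowe a b (Fin (n + p + 2) → ℂ) x = 0 → x = 0) ∧
      plethMult a b (n + p + 2) lam ≤ plethMult b a (n + p + 2) lam := by
  have he : Enum (fun i : Fin (n + p) => (i : ℕ) < n) n (Fin.castAdd p) := by
    constructor
    · intro l
      exact l.2
    · intro i hi
      exact ⟨⟨i, hi⟩, rfl⟩
  have hA : (∑ i : Fin (n + p), if (i : ℕ) < n then lam i.succ.succ else 0) =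
      ∑ i : Fin n, lam (Fin.castAdd p i).succ.succ := by
    rw [Fin.sum_univ_add]
    simp
  have hB : (∑ i : Fin (n + p), if ¬ (i : ℕ) < n then lam i.succ.succ else 0) =
      ∑ j : Fin p, lam (Fin.natAdd n j).succ.succ := by
    rw [Fin.sum_univ_add]
    simp
  have hK : KW (fun i : Fin (n + p) => (i : ℕ) < n) a b
      (∑ i : Fin (n + p), if (i : ℕ) < n then lam i.succ.succ else 0)
      (∑ i : Fin (n + p), if ¬ (i : ℕ) < n then lam i.succ.succ else 0) := by
    apply KW_all _ he (M := a - 1) (by omega) (by omega)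
    obtain ⟨s, hs, h⟩ := h
    refine ⟨s - 1, ?_⟩
    obtain ⟨r, rfl⟩ : ∃ r, s = r + 1 := ⟨s - 1, by omega⟩
    unfold CW
    rw [hA, hB]
    have h1 : r + 1 + n = r + n + 1 := by ring
    rw [h1] at h
    exact h
  exact ⟨fun x hx h0 => injOn_of_KW _ lam hK x hx h0, plethMult_of_KW _ lam hK⟩

end Vale.Agent.P181.H539.W
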