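import Vale.Agent.P181.R2.H572.Mix

/-!
# P181 (weighted tail slopes): the mixed row and Lemma I in a general algebra

Variants of `Mix.mixed_pure` of helper572 (first argument `w * B` with an arbitrary factor `w`) and of
`lemmaI` (no first argument).
-/

set_option autoImplicit false

namespace Vale.Agent.P181.H539.W

open MvPolynomial Finset
open Vale.Agent.P181 Vale.Agent.P181.H536 Vale.Agent.P181.H240 Vale.Agent.P181.R2.H572
open Vale.Agent.P181.R2.H572.Mix

variable {A : Type*} [CommRing A] [Algebra ℂ A]

/-- **The mixed row**, in a general algebra; the factor `w` is arbitrary. -/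
theorem mixed_pure2 {n a b r r0 d t : ℕ} (F : MultilinearMap ℂ (fun _ : Fin (a + 1) => A) ℂ)
    (p q : A) (zb : Fin n → A) (Z L : Submodule ℂ A) (hzb : ∀ l, zb l ∈ Z)
    (hZ : ∀ z ∈ Z, ∃ c : Fin n → ℂ, z = ∑ l, c l • zb l) (hZL : Z ≤ L) (hp : p ∈ L) (hq : q ∈ L)
    (hL : ∀ l ∈ L, ∃ α β : ℂ, ∃ z ∈ Z, l = α • p + β • q + z)
    (τ : ℂ → A →ₐ[ℂ] A) (τp : ∀ c, τ c p = p) (τq : ∀ c, τ c q = q)
    (τz : ∀ c, ∀ z ∈ Z, τ c z = c • z)
    (g : A → A →ₐ[ℂ] A) (gp : ∀ v ∈ Z, g v p = p + v) (gq : ∀ v ∈ Z, g v q = q)
    (gz : ∀ v ∈ Z, ∀ z ∈ Z, g v z = z)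
    (w : A) (hgw : ∀ v ∈ Z, g v w = w) (hτw : ∀ c, τ c w = c ^ r • w)
    (hom : ∀ c : ℂ, c ≠ 0 → ∀ B ∈ L ^ r0, ∀ P : Fin a → A, (∀ i, P i ∈ L ^ b) →
      F (fun i => τ c ((Fin.cons (w * B) P : Fin (a + 1) → A) i)) =
        c ^ t * F (Fin.cons (w * B) P))
    (inv : ∀ v ∈ Z, ∀ B ∈ L ^ r0, ∀ P : Fin a → A, (∀ i, P i ∈ L ^ b) →
      F (fun i => g v ((Fin.cons (w * B) P : Fin (a + 1) → A) i)) = F (Fin.cons (w * B) P))
    (hQ : ∀ B ∈ L ^ r0, ∀ x : ℂ, ∀ z ∈ Z, ∀ h : Fin a → A, (∀ i, h i ∈ L ^ (b - 1)) →
      ∃ P : Polynomial ℂ, P.natDegree ≤ d ∧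
        ∀ c, P.eval c = F.curryLeft (w * B) (fun i => (lin p q x + c • z) * h i))
    (hrt : r ≤ t) (hlt : n * (b * d + r0) < (n + 1) * (t - r)) :
    ∀ B ∈ L ^ r0, IsK L b (F.curryLeft (w * B)) := by
  classical
  have key : ∀ (y : Fin r0 → ℂ) (v : Fin r0 → A), (∀ i, v i ∈ Z) →
      IsK L b (F.curryLeft (w * ∏ i, (lin p q (y i) + v i))) := by
    intro y v hv
    apply isK_of_chart _ p q Z L hL
    intro x z hz
    choose γ hγ using fun i => hZ (v i) (hv i)
    choose κ hκ using fun j => hZ (z j) (hz j)
    obtain ⟨G, hG, -⟩ := mv_exists (σ := (Fin b ⊕ Fin r0) × Fin n) F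
      (Fin.cons (C w * ∏ i, (C (lin p q (y i)) + ∑ l, X (Sum.inr i, l) * C (zb l)))
        (fun _ => ∏ j, (C (lin p q (x j)) + ∑ l, X (Sum.inl j, l) * C (zb l))))
    let W : ((Fin b ⊕ Fin r0) × Fin n → ℂ) → A := fun e =>
      ∏ i, (lin p q (y i) + ∑ l, e (Sum.inr i, l) • zb l)
    let Q : ((Fin b ⊕ Fin r0) × Fin n → ℂ) → A := fun e =>
      ∏ j, (lin p q (x j) + ∑ l, e (Sum.inl j, l) • zb l)
    have hG' : ∀ e, eval e G = F (Fin.cons (w * W e) (fun _ => Q e)) := by
      intro e
      rw [hG]
      congr 1
      funext i
      refine Fin.cases ?_ (fun i => ?_) i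
      · rw [Fin.cons_zero, Fin.cons_zero, map_mul, evA_C, map_prod]
        congr 1
        apply Finset.prod_congr rfl
        intro j _
        rw [map_add, evA_C, map_sum]
        congr 1
        apply Finset.sum_congr rfl
        intro l _
        rw [map_mul, evA_X, evA_C, Algebra.smul_def]
      · rw [Fin.cons_succ, Fin.cons_succ, map_prod]
        apply Finset.prod_congr rfl
        intro j _
        rw [map_add, evA_C, map_sum]
        congr 1
        apply Finset.sum_congr rfl
        intro l _
        rw [map_mul, evA_X, evA_C, Algebra.smul_def]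
    have hs : ∀ c : Fin n → ℂ, ∑ l, c l • zb l ∈ Z := fun c =>
      Z.sum_mem fun l _ => Z.smul_mem _ (hzb l)
    have hline : ∀ (x : ℂ) (c : Fin n → ℂ), lin p q x + ∑ l, c l • zb l ∈ L := by
      intro x c
      exact L.add_mem (L.add_mem hp (L.smul_mem _ hq)) (hZL (hs c))
    have hW : ∀ e, W e ∈ L ^ r0 := by
      intro e
      have h1 := prod_mem_pow_card L (Finset.univ : Finset (Fin r0))
        (fun i => lin p q (y i) + ∑ l, e (Sum.inr i, l) • zb l) (fun i => hline _ _)
      rwa [Finset.card_univ, Fintype.card_fin] at h1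
    have hQm : ∀ e, Q e ∈ L ^ b := by
      intro e
      have h1 := prod_mem_pow_card L (Finset.univ : Finset (Fin b))
        (fun j => lin p q (x j) + ∑ l, e (Sum.inl j, l) • zb l) (fun j => hline _ _)
      rwa [Finset.card_univ, Fintype.card_fin] at h1
    have hG0 : G = 0 := by
      apply Blk.sl2_multi (Sum.elim (fun _ => d) (fun _ => 1)) (T := t - r) G
      · -- degrees
        intro m hm j
        have hconv : ∑ l, m (j, l) = ∑ q ∈ Finset.univ.filter
            (fun q : (Fin b ⊕ Fin r0) × Fin n => q.1 = j), m q := by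
          refine Finset.sum_bij (fun l _ => (j, l)) ?_ ?_ ?_ ?_
          · intro l _; simp
          · intro l _ l' _ h; exact (Prod.mk.inj h).2
          · rintro ⟨j', l'⟩ h
            rw [Finset.mem_filter] at h
            exact ⟨l', Finset.mem_univ _, by rw [← h.2]⟩
          · intro l _; rfl
        rw [hconv]
        refine deg_le_of_scaling _ G _ ?_ m hm
        intro c
        rcases j with j | i0
        · -- a column
          rw [Sum.elim_inl]
          obtain ⟨P, hPd, hPe⟩ := hQ (W c) (hW c) (x j) (∑ l, c (Sum.inl j, l) • zb l) (hs _)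
            (fun _ => ∏ j' ∈ Finset.univ.erase j,
              (lin p q (x j') + ∑ l, c (Sum.inl j', l) • zb l)) (by
              intro _
              have h1 := prod_mem_pow_card L (Finset.univ.erase j)
                (fun j' => lin p q (x j') + ∑ l, c (Sum.inl j', l) • zb l) (fun j => hline _ _)
              rwa [Finset.card_erase_of_mem (Finset.mem_univ j), Finset.card_univ,
                Fintype.card_fin] at h1)
          refine ⟨P, hPd, ?_⟩
          intro u
          rw [hPe, hG', MultilinearMap.curryLeft_apply]
          congr 1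
          congr 1
          · have : W (fun q => if q ∈ Finset.univ.filter
                (fun q : (Fin b ⊕ Fin r0) × Fin n => q.1 = Sum.inl j) then u * c q else c q) =
                W c := by
              apply Finset.prod_congr rfl
              intro i _
              simp
            rw [this]
          · funext _
            show _ = ∏ j', _
            rw [← Finset.mul_prod_erase Finset.univ _ (Finset.mem_univ j)]
            congr 1
            · simp [Finset.smul_sum, smul_smul]
            · apply Finset.prod_congr rfl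
              intro j' hj'
              have hne := Finset.ne_of_mem_erase hj'
              simp [hne]
        · -- a line of the first argument
          rw [Sum.elim_inr]
          let R : A := ∏ i ∈ Finset.univ.erase i0, (lin p q (y i) + ∑ l, c (Sum.inr i, l) • zb l)
          refine ⟨Polynomial.C (F (Fin.cons (w * (lin p q (y i0) * R)) (fun _ => Q c))) +
            Polynomial.C (F (Fin.cons (w * ((∑ l, c (Sum.inr i0, l) • zb l) * R))
              (fun _ => Q c))) * Polynomial.X, ?_, ?_⟩
          · refine (Polynomial.natDegree_add_le _ _).trans (max_le ?_ ?_)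
            · rw [Polynomial.natDegree_C]; exact Nat.zero_le _
            · exact (Polynomial.natDegree_C_mul_le _ _).trans Polynomial.natDegree_X_le
          · intro u
            rw [hG']
            have hQc : Q (fun q => if q ∈ Finset.univ.filter
                (fun q : (Fin b ⊕ Fin r0) × Fin n => q.1 = Sum.inr i0) then u * c q
                else c q) = Q c := by
              apply Finset.prod_congr rfl
              intro j _
              simp
            have hWc : W (fun q => if q ∈ Finset.univ.filter
                (fun q : (Fin b ⊕ Fin r0) × Fin n => q.1 = Sum.inr i0) then u * c q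
                else c q) = lin p q (y i0) * R + u • ((∑ l, c (Sum.inr i0, l) • zb l) * R) := by
              show ∏ i, _ = _
              rw [← Finset.mul_prod_erase Finset.univ _ (Finset.mem_univ i0)]
              have h5 : ∏ i ∈ Finset.univ.erase i0, (lin p q (y i) + ∑ l,
                  (if (Sum.inr i, l) ∈ Finset.univ.filter
                    (fun q : (Fin b ⊕ Fin r0) × Fin n => q.1 = Sum.inr i0)
                    then u * c (Sum.inr i, l) else c (Sum.inr i, l)) • zb l) = R := by
                apply Finset.prod_congr rfl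
                intro i hi
                have hne := Finset.ne_of_mem_erase hi
                simp [hne]
              rw [h5, ← smul_mul_assoc, ← add_mul]
              congr 2
              simp [Finset.smul_sum, smul_smul]
            rw [hQc, hWc]
            have h6 : F (Fin.cons (w * (lin p q (y i0) * R +
                u • ((∑ l, c (Sum.inr i0, l) • zb l) * R))) (fun _ => Q c)) =
                F.curryLeft (w * (lin p q (y i0) * R +
                u • ((∑ l, c (Sum.inr i0, l) • zb l) * R))) (fun _ => Q c) := rfl
            rw [h6, mul_add, mul_smul_comm, map_add, map_smul, _root_.add_apply, _root_.smul_apply,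
              MultilinearMap.curryLeft_apply, MultilinearMap.curryLeft_apply, Polynomial.eval_add,
              Polynomial.eval_mul, Polynomial.eval_C, Polynomial.eval_C, Polynomial.eval_X,
              smul_eq_mul, mul_comm u]
      · -- homogeneity
        apply sum_of_scaling
        intro c u hu
        have h1 := hom u hu (W c) (hW c) (fun _ => Q c) (fun _ => hQm c)
        have h2 : (fun i => τ u ((Fin.cons (w * W c) (fun _ => Q c) : Fin (a + 1) → A) i)) =
            Fin.cons (u ^ r • (w * W (fun q => u * c q))) (fun _ => Q (fun q => u * c q)) := by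
          funext i
          refine Fin.cases ?_ (fun i => ?_) i
          · rw [Fin.cons_zero, Fin.cons_zero, map_mul, hτw, smul_mul_assoc]
            congr 2
            rw [map_prod]
            apply Finset.prod_congr rfl
            intro i _
            rw [map_add, lin, map_add, map_smul, τp, τq, τz u _ (hs _), Finset.smul_sum]
            congr 1
            apply Finset.sum_congr rfl
            intro l _
            rw [smul_smul]
          · rw [Fin.cons_succ, Fin.cons_succ, map_prod]
            apply Finset.prod_congr rfl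
            intro i _
            rw [map_add, lin, map_add, map_smul, τp, τq, τz u _ (hs _), Finset.smul_sum]
            congr 1
            apply Finset.sum_congr rfl
            intro l _
            rw [smul_smul]
        rw [h2] at h1
        have h3 : F (Fin.cons (u ^ r • (w * W (fun q => u * c q))) (fun _ => Q (fun q => u * c q))) =
            F.curryLeft (u ^ r • (w * W (fun q => u * c q))) (fun _ => Q (fun q => u * c q)) := rfl
        rw [h3, map_smul, _root_.smul_apply, MultilinearMap.curryLeft_apply, smul_eq_mul,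
          ← hG' (fun q => u * c q), ← hG' c] at h1
        have h4 : u ^ t = u ^ r * u ^ (t - r) := by rw [← pow_add]; congr 1; omega
        rw [h4, mul_assoc] at h1
        exact mul_left_cancel₀ (pow_ne_zero _ hu) h1
      · -- invariance
        intro l0 ε c
        have h1 := inv (ε • zb l0) (Z.smul_mem _ (hzb l0)) (W c) (hW c) (fun _ => Q c) (fun _ => hQm c)
        rw [hG', hG', ← h1]
        have hsum : ∀ (j : Fin b ⊕ Fin r0),
            ∑ l, (if l = l0 then c (j, l) + ε else c (j, l)) • zb l =
              ε • zb l0 + ∑ l, c (j, l) • zb l := by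
          intro j
          have h7 : ∀ l, (if l = l0 then c (j, l) + ε else c (j, l)) • zb l =
              (if l = l0 then ε • zb l0 else 0) + c (j, l) • zb l := by
            intro l
            by_cases hl : l = l0
            · rw [if_pos hl, if_pos hl, hl, add_smul, add_comm]
            · rw [if_neg hl, if_neg hl, zero_add]
          rw [Finset.sum_congr rfl fun l _ => h7 l, Finset.sum_add_distrib, Finset.sum_ite_eq',
            if_pos (Finset.mem_univ _)]
        congr 1
        funext i
        refine Fin.cases ?_ (fun i => ?_) i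
        · rw [Fin.cons_zero, Fin.cons_zero, map_mul, hgw _ (Z.smul_mem _ (hzb l0))]
          congr 1
          rw [map_prod]
          apply Finset.prod_congr rfl
          intro i _
          rw [map_add, lin, map_add, map_smul, gp _ (Z.smul_mem _ (hzb l0)),
            gq _ (Z.smul_mem _ (hzb l0)), gz _ (Z.smul_mem _ (hzb l0)) _ (hs _), hsum]
          abel
        · rw [Fin.cons_succ, Fin.cons_succ, map_prod]
          apply Finset.prod_congr rfl
          intro i _
          rw [map_add, lin, map_add, map_smul, gp _ (Z.smul_mem _ (hzb l0)),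
            gq _ (Z.smul_mem _ (hzb l0)), gz _ (Z.smul_mem _ (hzb l0)) _ (hs _), hsum]
          abel
      · rw [Fintype.sum_sum_type]
        simp only [Sum.elim_inl, Sum.elim_inr, Finset.sum_const, Finset.card_univ,
          Fintype.card_fin, smul_eq_mul, mul_one]
        exact hlt
    have hfin := hG' (fun q => Sum.elim (fun j => κ j q.2) (fun i => γ i q.2) q.1)
    rw [hG0, map_zero] at hfin
    rw [MultilinearMap.curryLeft_apply]
    rw [hfin]
    congr 1
    funext i
    refine Fin.cases ?_ (fun i => ?_) i
    · rw [Fin.cons_zero, Fin.cons_zero]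
      congr 1
      apply Finset.prod_congr rfl
      intro i _
      rw [hγ i]
      rfl
    · rw [Fin.cons_succ, Fin.cons_succ]
      apply Finset.prod_congr rfl
      intro j _
      rw [hκ j]
      rfl
  intro B hB m hm hmL
  let M : Submodule ℂ A :=
    { carrier := {B | F.curryLeft (w * B) (fun _ => m.prod) = 0}
      add_mem' := by
        intro x y hx hy
        show F.curryLeft (w * (x + y)) _ = 0
        rw [mul_add, map_add, _root_.add_apply]
        have hx' : F.curryLeft (w * x) (fun _ => m.prod) = 0 := hx
        have hy' : F.curryLeft (w * y) (fun _ => m.prod) = 0 := hy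
        rw [hx', hy', add_zero]
      zero_mem' := by
        show F.curryLeft (w * 0) _ = 0
        rw [mul_zero, map_zero]; rfl
      smul_mem' := by
        intro c x hx
        show F.curryLeft (w * (c • x)) _ = 0
        have hx' : F.curryLeft (w * x) (fun _ => m.prod) = 0 := hx
        rw [mul_smul_comm, map_smul, _root_.smul_apply, hx', smul_zero] }
  have hM : L ^ r0 ≤ M := pow_le_of_chart hL r0 M fun y z hz => key y z hz m hm hmL
  exact hM hB

/-- **Lemma I**, in a general algebra. -/
theorem lemmaI_pure {n a b d t : ℕ} (F : MultilinearMap ℂ (fun _ : Fin a => A) ℂ)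
    (p q : A) (zb : Fin n → A) (Z L : Submodule ℂ A) (hzb : ∀ l, zb l ∈ Z)
    (hZ : ∀ z ∈ Z, ∃ c : Fin n → ℂ, z = ∑ l, c l • zb l) (hZL : Z ≤ L) (hp : p ∈ L) (hq : q ∈ L)
    (hL : ∀ l ∈ L, ∃ α β : ℂ, ∃ z ∈ Z, l = α • p + β • q + z)
    (τ : ℂ → A →ₐ[ℂ] A) (τp : ∀ c, τ c p = p) (τq : ∀ c, τ c q = q)
    (τz : ∀ c, ∀ z ∈ Z, τ c z = c • z)
    (g : A → A →ₐ[ℂ] A) (gp : ∀ v ∈ Z, g v p = p + v) (gq : ∀ v ∈ Z, g v q = q)
    (gz : ∀ v ∈ Z, ∀ z ∈ Z, g v z = z)
    (hom : ∀ c : ℂ, c ≠ 0 → ∀ P : Fin a → A, (∀ i, P i ∈ L ^ b) →
      F (fun i => τ c (P i)) = c ^ t * F P)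
    (inv : ∀ v ∈ Z, ∀ P : Fin a → A, (∀ i, P i ∈ L ^ b) → F (fun i => g v (P i)) = F P)
    (hQ : ∀ x : ℂ, ∀ z ∈ Z, ∀ h : Fin a → A, (∀ i, h i ∈ L ^ (b - 1)) →
      ∃ P : Polynomial ℂ, P.natDegree ≤ d ∧
        ∀ c, P.eval c = F (fun i => (lin p q x + c • z) * h i))
    (hlt : n * (b * d) < (n + 1) * t) : IsK L b F := by
  classical
  apply isK_of_chart _ p q Z L hL
  intro x z hz
  choose κ hκ using fun j => hZ (z j) (hz j)
  obtain ⟨G, hG, -⟩ := mv_exists (σ := Fin b × Fin n) F
    (fun _ => ∏ j, (C (lin p q (x j)) + ∑ l, X (j, l) * C (zb l)))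
  let Q : (Fin b × Fin n → ℂ) → A := fun e =>
    ∏ j, (lin p q (x j) + ∑ l, e (j, l) • zb l)
  have hG' : ∀ e, eval e G = F (fun _ => Q e) := by
    intro e
    rw [hG]
    congr 1
    funext _
    rw [map_prod]
    apply Finset.prod_congr rfl
    intro j _
    rw [map_add, evA_C, map_sum]
    congr 1
    apply Finset.sum_congr rfl
    intro l _
    rw [map_mul, evA_X, evA_C, Algebra.smul_def]
  have hs : ∀ c : Fin n → ℂ, ∑ l, c l • zb l ∈ Z := fun c =>
    Z.sum_mem fun l _ => Z.smul_mem _ (hzb l)
  have hline : ∀ (x : ℂ) (c : Fin n → ℂ), lin p q x + ∑ l, c l • zb l ∈ L := by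
    intro x c
    exact L.add_mem (L.add_mem hp (L.smul_mem _ hq)) (hZL (hs c))
  have hQm : ∀ e, Q e ∈ L ^ b := by
    intro e
    have h1 := prod_mem_pow_card L (Finset.univ : Finset (Fin b))
      (fun j => lin p q (x j) + ∑ l, e (j, l) • zb l) (fun j => hline _ _)
    rwa [Finset.card_univ, Fintype.card_fin] at h1
  have hG0 : G = 0 := by
    apply Blk.sl2_multi (fun _ : Fin b => d) (T := t) G
    · intro m hm j
      have hconv : ∑ l, m (j, l) = ∑ q ∈ Finset.univ.filter
          (fun q : Fin b × Fin n => q.1 = j), m q := by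
        refine Finset.sum_bij (fun l _ => (j, l)) ?_ ?_ ?_ ?_
        · intro l _; simp
        · intro l _ l' _ h; exact (Prod.mk.inj h).2
        · rintro ⟨j', l'⟩ h
          rw [Finset.mem_filter] at h
          exact ⟨l', Finset.mem_univ _, by rw [← h.2]⟩
        · intro l _; rfl
      rw [hconv]
      refine deg_le_of_scaling _ G _ ?_ m hm
      intro c
      obtain ⟨P, hPd, hPe⟩ := hQ (x j) (∑ l, c (j, l) • zb l) (hs _)
        (fun _ => ∏ j' ∈ Finset.univ.erase j,
          (lin p q (x j') + ∑ l, c (j', l) • zb l)) (by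
          intro _
          have h1 := prod_mem_pow_card L (Finset.univ.erase j)
            (fun j' => lin p q (x j') + ∑ l, c (j', l) • zb l) (fun j => hline _ _)
          rwa [Finset.card_erase_of_mem (Finset.mem_univ j), Finset.card_univ,
            Fintype.card_fin] at h1)
      refine ⟨P, hPd, ?_⟩
      intro u
      rw [hPe, hG']
      congr 1
      funext _
      show _ = ∏ j', _
      rw [← Finset.mul_prod_erase Finset.univ _ (Finset.mem_univ j)]
      congr 1
      · simp [Finset.smul_sum, smul_smul]
      · apply Finset.prod_congr rfl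
        intro j' hj'
        have hne := Finset.ne_of_mem_erase hj'
        simp [hne]
    · apply sum_of_scaling
      intro c u hu
      have h1 := hom u hu (fun _ => Q c) (fun _ => hQm c)
      have h2 : (fun i : Fin a => τ u (Q c)) = fun _ => Q (fun q => u * c q) := by
        funext i
        rw [map_prod]
        apply Finset.prod_congr rfl
        intro i _
        rw [map_add, lin, map_add, map_smul, τp, τq, τz u _ (hs _), Finset.smul_sum]
        congr 1
        apply Finset.sum_congr rfl
        intro l _
        rw [smul_smul]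
      rw [h2, ← hG' (fun q => u * c q), ← hG' c] at h1
      exact h1
    · intro l0 ε c
      have h1 := inv (ε • zb l0) (Z.smul_mem _ (hzb l0)) (fun _ => Q c) (fun _ => hQm c)
      rw [hG', hG', ← h1]
      have hsum : ∀ (j : Fin b),
          ∑ l, (if l = l0 then c (j, l) + ε else c (j, l)) • zb l =
            ε • zb l0 + ∑ l, c (j, l) • zb l := by
        intro j
        have h7 : ∀ l, (if l = l0 then c (j, l) + ε else c (j, l)) • zb l =
            (if l = l0 then ε • zb l0 else 0) + c (j, l) • zb l := by
          intro l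
          by_cases hl : l = l0
          · rw [if_pos hl, if_pos hl, hl, add_smul, add_comm]
          · rw [if_neg hl, if_neg hl, zero_add]
        rw [Finset.sum_congr rfl fun l _ => h7 l, Finset.sum_add_distrib, Finset.sum_ite_eq',
          if_pos (Finset.mem_univ _)]
      congr 1
      funext i
      rw [map_prod]
      apply Finset.prod_congr rfl
      intro i _
      rw [map_add, lin, map_add, map_smul, gp _ (Z.smul_mem _ (hzb l0)),
        gq _ (Z.smul_mem _ (hzb l0)), gz _ (Z.smul_mem _ (hzb l0)) _ (hs _), hsum]
      abel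
    · rw [Finset.sum_const, Finset.card_univ, Fintype.card_fin, smul_eq_mul]
      exact hlt
  have hfin := hG' (fun q => κ q.1 q.2)
  rw [hG0, map_zero] at hfin
  rw [hfin]
  congr 1
  funext i
  apply Finset.prod_congr rfl
  intro j _
  rw [hκ j]

end Vale.Agent.P181.H539.W
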