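import Vale.Agent.P181.H539.W.Curry
import Vale.Agent.P181.H539.W.Mix2
import Vale.Agent.P181.R2.H280.NStep

/-!
# P181 (weighted tail slopes): the step
-/

set_option autoImplicit false

open MvPolynomial

namespace Vale.Agent.P181.H539.W

open Vale.Agent.P181 Vale.Agent.P181.H536 Vale.Agent.P181.H280 Vale.Agent.P181.TN
open Vale.Agent.P181.R2.H866

variable {N : ℕ} (P : Fin N → Prop) [DecidablePred P]

/-- A form which is independent of the light variables on multiples of lines does not see the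
light part of one factor. -/
lemma drop_one {a b : ℕ} {Φ : Fm N a} (hI : Inv (b + 1) Φ)
    (hD : ∀ z ∈ ZP (fun i => ¬ P i), DZ (X 0) (X 1) z (linS (N + 2)) b 1 Φ) {z y : Sn N}
    (hz : z ∈ ZP (fun i => ¬ P i)) (hy : y ∈ ZZ N) (x : ℂ) {g : Fin a → Sn N} (hg : Dg b g) :
    Φ (fun i => (ln N x + y + z) * g i) = Φ (fun i => (ln N x + y) * g i) := by
  have h1 := gen z (ln N x + y) Φ g 1
  rw [one_smul] at h1
  rw [h1, Finset.sum_eq_single 0]
  · rw [pow_zero, one_mul, Dev, Finset.powersetCard_zero, Finset.sum_singleton]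
    congr 1
  · intro k _ hk
    have h3 : Dev z k (ln N x) Φ (fun i => sh N (-y) (g i)) = 0 := hD z hz k (by omega) x _
      (fun i => sh_mem ((ZZ N).neg_mem hy) (hg i))
    rw [Dev_shift hI (ZP_le_ZZ _ hz) hy x hg, h3, mul_zero]
  · intro h
    exact absurd (Finset.mem_range.2 (Nat.succ_pos a)) h

/-- **First case**: positive weight in the light variables, independent of them. -/
theorem isK_of_indep {a b t : ℕ} (ht : 1 ≤ t) {Φ : Fm N a} (hI : Inv (b + 1) Φ)
    (hB : HomP (fun i => ¬ P i) (b + 1) t Φ)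
    (hD : ∀ z ∈ ZP (fun i => ¬ P i), DZ (X 0) (X 1) z (linS (N + 2)) b 1 Φ) :
    IsK (linS (N + 2)) (b + 1) Φ := by
  classical
  apply isK_of_chart
  intro x z hz
  choose y hy v hv hyv using fun j => Submodule.mem_sup.1 ((ZZ_eq P) ▸ hz j)
  -- all light parts can be dropped
  have hdrop : ∀ (v : Fin (b + 1) → Sn N), (∀ j, v j ∈ ZP (fun i => ¬ P i)) →
      ∀ S : Finset (Fin (b + 1)),
      Φ (fun _ => ∏ j, (ln N (x j) + (y j + if j ∈ S then v j else 0))) =
        Φ (fun _ => ∏ j, (ln N (x j) + y j)) := by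
    intro v hv S
    induction S using Finset.induction_on with
    | empty => simp
    | insert k S hk ih =>
      rw [← ih]
      have hmem : (∏ j ∈ Finset.univ.erase k, (ln N (x j) + (y j + if j ∈ S then v j else 0))) ∈
          linS (N + 2) ^ b := by
        have h1 := H240.prod_mem_pow_card (linS (N + 2)) (Finset.univ.erase k)
          (fun j => ln N (x j) + (y j + if j ∈ S then v j else 0)) (fun j => by
            refine line_mem ((ZZ N).add_mem (ZP_le_ZZ _ (hy j)) ?_) _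
            split_ifs
            · exact ZP_le_ZZ _ (hv j)
            · exact Submodule.zero_mem _)
        rwa [Finset.card_erase_of_mem (Finset.mem_univ k), Finset.card_univ,
          Fintype.card_fin, Nat.add_sub_cancel] at h1
      have h2 := drop_one P hI hD (hv k) (ZP_le_ZZ _ (hy k)) (x k)
        (g := fun _ => ∏ j ∈ Finset.univ.erase k,
          (ln N (x j) + (y j + if j ∈ S then v j else 0))) (fun _ => hmem)
      have e1 : (∏ j, (ln N (x j) + (y j + if j ∈ insert k S then v j else 0))) =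
          (ln N (x k) + y k + v k) * ∏ j ∈ Finset.univ.erase k,
            (ln N (x j) + (y j + if j ∈ S then v j else 0)) := by
        rw [← Finset.mul_prod_erase Finset.univ _ (Finset.mem_univ k)]
        congr 1
        · rw [if_pos (Finset.mem_insert_self k S), add_assoc]
        · apply Finset.prod_congr rfl
          intro j hj
          have hne := Finset.ne_of_mem_erase hj
          simp only [Finset.mem_insert, hne, false_or]
      have e2 : (∏ j, (ln N (x j) + (y j + if j ∈ S then v j else 0))) =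
          (ln N (x k) + y k) * ∏ j ∈ Finset.univ.erase k,
            (ln N (x j) + (y j + if j ∈ S then v j else 0)) := by
        rw [← Finset.mul_prod_erase Finset.univ _ (Finset.mem_univ k)]
        congr 1
        rw [if_neg hk, add_zero]
      rw [e1, e2]
      exact h2
  have hd1 := hdrop v hv Finset.univ
  have hd2 := hdrop (fun j => (2 : ℂ) • v j) (fun j => Submodule.smul_mem _ _ (hv j)) Finset.univ
  simp only [Finset.mem_univ, if_true] at hd1 hd2
  have h3 := hB 2 two_ne_zero (fun _ => ∏ j, (ln N (x j) + (y j + v j))) (by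
    intro _
    apply prod_line_mem
    intro j
    rw [hyv]
    exact hz j)
  have h4 : (fun i : Fin a => sc (fun i => ¬ P i) 2 (∏ j, (ln N (x j) + (y j + v j)))) =
      fun _ => ∏ j, (ln N (x j) + (y j + (2 : ℂ) • v j)) := by
    funext _
    rw [map_prod]
    apply Finset.prod_congr rfl
    intro j _
    rw [map_add, map_add, sc_ln, sc_Z _ (hv j),
      sc_Z_of_disj (fun i => ¬ P i) (fun _ h => not_not.2 h) (hy j)]
  rw [h4, hd2, ← hd1] at h3
  have h5 : (fun _ : Fin a => ∏ j, (ln N (x j) + z j)) =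
      fun _ => ∏ j, (ln N (x j) + (y j + v j)) := by
    funext _
    apply Finset.prod_congr rfl
    intro j _
    rw [hyv]
  rw [h5]
  have h6 : ((2 : ℂ) ^ t - 1) * Φ (fun _ => ∏ j, (ln N (x j) + (y j + v j))) = 0 := by
    rw [sub_mul, one_mul, ← h3, sub_self]
  refine (mul_eq_zero.1 h6).resolve_left ?_
  rw [sub_eq_zero]
  intro h7
  have h8 : (2 : ℕ) ^ t = 1 := by exact_mod_cast h7
  have h9 : 1 < 2 ^ t := Nat.one_lt_two_pow (by omega)
  omega

/-- **Second case**: vanishing on multiples of lines. -/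
theorem isK_of_line {a b : ℕ} {Φ : Fm N a} (hI : Inv (b + 1) Φ)
    (hD : ∀ (x : ℂ) (g : Fin a → Sn N), Dg b g → Φ (fun i => ln N x * g i) = 0) :
    IsK (linS (N + 2)) (b + 1) Φ := by
  apply isK_of_chart
  intro x z hz
  have hmem : (∏ j : Fin b, (ln N (x j.succ) + z j.succ)) ∈ linS (N + 2) ^ b :=
    prod_line_mem (fun j => x j.succ) (fun j => z j.succ) (fun j => hz j.succ)
  have h1 := hI (-(z 0)) ((ZZ N).neg_mem (hz 0))
    (fun _ => ∏ j, (ln N (x j) + z j)) (fun _ => prod_line_mem x z hz)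
  rw [← h1]
  have h2 : (fun i : Fin a => sh N (-(z 0)) (∏ j, (ln N (x j) + z j))) =
      fun _ => ln N (x 0) * sh N (-(z 0)) (∏ j : Fin b, (ln N (x j.succ) + z j.succ)) := by
    funext _
    rw [Fin.prod_univ_succ, map_mul, map_add, sh_ln, sh_Z (hz 0)]
    congr 1
    abel
  rw [h2]
  exact hD (x 0) _ (fun _ => sh_mem ((ZZ N).neg_mem (hz 0)) hmem)

/-- **Third case**: weight zero in the light variables. -/
theorem isK_of_weight_zero {a b : ℕ} {Φ : Fm N a} (hB : HomP (fun i => ¬ P i) b 0 Φ)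
    (hK : IsK (LA P) b Φ) : IsK (linS (N + 2)) b Φ := by
  intro m hm hmL
  obtain ⟨f, hf⟩ := exists_fin_map m b hm
  have hfL : ∀ j, f j ∈ linS (N + 2) := by
    intro j
    apply hmL
    rw [hf]
    exact Multiset.mem_map_of_mem f (Finset.mem_univ_val j)
  choose u hu z hz huz using fun j => Submodule.mem_sup.1 ((linS_eq2 P) ▸ hfL j)
  have hmp : m.prod = ∏ j, f j := by
    rw [hf]; rfl
  rw [hmp]
  have hscu : ∀ (c : ℂ) (w : Sn N), w ∈ LA P → sc (fun i => ¬ P i) c w = w := by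
    intro c w hw
    obtain ⟨u, hu, y, hy, rfl⟩ := Submodule.mem_sup.1 hw
    rw [map_add, sc_U _ hu, sc_Z_of_disj (fun i => ¬ P i) (fun _ h => not_not.2 h) hy]
  obtain ⟨R, hR⟩ := poly_exists Φ (fun _ => ∏ j, (Polynomial.C (u j) +
    Polynomial.X * Polynomial.C (z j)))
  have hR' : ∀ e : ℂ, R.eval e = Φ (fun _ => ∏ j, (u j + e • z j)) := by
    intro e
    rw [hR]
    congr 1
    funext _
    rw [Polynomial.eval_prod]
    apply Finset.prod_congr rfl
    intro j _
    rw [Polynomial.eval_add, Polynomial.eval_C, Polynomial.eval_mul, Polynomial.eval_X,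
      Polynomial.eval_C, Algebra.smul_def]
  have hfm : ∀ j, f j = u j + z j := fun j => (huz j).symm
  have hmem : (∏ j, f j) ∈ linS (N + 2) ^ b := by
    have h1 := H240.prod_mem_pow_card (linS (N + 2)) Finset.univ f hfL
    rwa [Finset.card_univ, Fintype.card_fin] at h1
  have hconst : R = Polynomial.C (Φ (fun _ => ∏ j, f j)) := by
    apply Polynomial.eq_of_infinite_eval_eq
    apply Set.Infinite.mono (s := ({0} : Set ℂ)ᶜ)
    · intro c hc
      have hc0 : c ≠ 0 := hc
      rw [Set.mem_ofPred_eq, hR', Polynomial.eval_C]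
      have h1 := hB c hc0 (fun _ => ∏ j, f j) (fun _ => hmem)
      rw [pow_zero, one_mul] at h1
      rw [← h1]
      congr 1
      funext _
      rw [map_prod]
      apply Finset.prod_congr rfl
      intro j _
      rw [hfm, map_add, hscu c _ (hu j), sc_Z _ (hz j)]
    · exact (Set.finite_singleton (0 : ℂ)).infinite_compl
  have h0 := hR' 0
  rw [hconst, Polynomial.eval_C] at h0
  rw [h0]
  have h1 := hK (Multiset.map u Finset.univ.val) (by
    rw [Multiset.card_map, Finset.card_val, Finset.card_univ, Fintype.card_fin]) (by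
    intro w hw
    obtain ⟨j, _, rfl⟩ := Multiset.mem_map.1 hw
    exact hu j)
  refine Eq.trans ?_ h1
  congr 1
  funext _
  have e1 : (Multiset.map u Finset.univ.val).prod = ∏ j, u j := rfl
  rw [e1]
  apply Finset.prod_congr rfl
  intro j _
  rw [zero_smul, add_zero]

/-- An enumeration of the heavy variables. -/
def Enum (n : ℕ) (e : Fin n → Fin N) : Prop := (∀ l, P (e l)) ∧ ∀ i, P i → ∃ l, e l = i

lemma enum_span {n : ℕ} {e : Fin n → Fin N} (he : Enum P n e) {z : Sn N} (hz : z ∈ ZP P) :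
    ∃ c : Fin n → ℂ, z = ∑ l, c l • (X (e l).succ.succ : Sn N) := by
  have h1 : ZP P ≤ Submodule.span ℂ (Set.range fun l : Fin n => (X (e l).succ.succ : Sn N)) := by
    rw [ZP, Submodule.span_le]
    rintro _ ⟨i, hi, rfl⟩
    obtain ⟨l, rfl⟩ := he.2 i hi
    exact Submodule.subset_span ⟨l, rfl⟩
  obtain ⟨c, hc⟩ := (Submodule.mem_span_range_iff_exists_fun ℂ).1 (h1 hz)
  exact ⟨c, hc.symm⟩

lemma LA_decomp : ∀ l ∈ LA P, ∃ α β : ℂ, ∃ z ∈ ZP P, l = α • (X 0 : Sn N) + β • X 1 + z := by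
  intro l hl
  obtain ⟨u, hu, z, hz, rfl⟩ := Submodule.mem_sup.1 hl
  obtain ⟨α, β, rfl⟩ := Submodule.mem_span_pair.1 hu
  exact ⟨α, β, z, hz, rfl⟩

lemma ZP_pow_LA {d : ℕ} {v : Sn N} (hv : v ∈ ZP P ^ d) : v ∈ LA P ^ d :=
  pow_le_pow_left' (M := Submodule ℂ (Sn N)) le_sup_right d hv

lemma U2_pow_LA {d : ℕ} {v : Sn N} (hv : v ∈ U2 N ^ d) : v ∈ LA P ^ d :=
  pow_le_pow_left' (M := Submodule ℂ (Sn N)) le_sup_left d hv

lemma X0_mem_LA : (X 0 : Sn N) ∈ LA P := Submodule.mem_sup_left (Submodule.subset_span (by simp))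

lemma X1_mem_LA : (X 1 : Sn N) ∈ LA P := Submodule.mem_sup_left (Submodule.subset_span (by simp))

/-- **Lemma I for the heavy variables.** -/
theorem lemmaI_A {n a b s t : ℕ} {e : Fin n → Fin N} (he : Enum P n e) (hs : 1 ≤ s)
    (h : n * ((s - 1) * (b + 1)) < (n + 1) * t) (F : Fm N a) (hI : Inv (b + 1) F)
    (hA : HomP P (b + 1) t F) (hF : ∀ y ∈ ZP P, DZ (X 0) (X 1) y (linS (N + 2)) b s F) :
    IsK (LA P) (b + 1) F := by
  refine lemmaI_pure (d := s - 1) (t := t) F (X 0) (X 1) (fun l => X (e l).succ.succ) (ZP P) (LA P)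
    (fun l => X_mem_ZP P (he.1 l)) (fun z hz => enum_span P he hz) le_sup_right
    (X0_mem_LA P) (X1_mem_LA P) (LA_decomp P)
    (fun c => sc P c) (fun c => sc_zero P c) (fun c => sc_one P c) (fun c z hz => sc_Z P hz c)
    (fun v => sh N v) (fun v _ => sh_X0 v) (fun v _ => sh_X1 v)
    (fun v _ z hz => sh_Z (ZP_le_ZZ _ hz)) ?_ ?_ ?_ ?_
  · intro c hc Q hQ
    exact hA c hc Q (fun i => pow_le_pow_left' (LA_le P) _ (hQ i))
  · intro v hv Q hQ
    exact hI v (ZP_le_ZZ _ hv) Q (fun i => pow_le_pow_left' (LA_le P) _ (hQ i))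
  · intro x z hz g hg
    rw [Nat.add_sub_cancel] at hg
    exact poly_of_DZ hs (hF z hz) x g (fun i => pow_le_pow_left' (LA_le P) _ (hg i))
  · rw [mul_comm (b + 1)]
    exact h

/-- **Heavy step for the heavy variables.** -/
theorem mixed_A {n m b s t kB : ℕ} {e : Fin n → Fin N} (he : Enum P n e) (hs : 2 ≤ s)
    (hmk : m + 1 + kB ≤ b + 1) (F : Fm N (m + 1)) (hI : Inv (b + 1) F)
    (hA : HomP P (b + 1) t F) (hF : ∀ y ∈ ZP P, DZ (X 0) (X 1) y (linS (N + 2)) b s F)
    (h : n * ((s - 1) * (b + 1)) + (m + 1) < (n + 1) * t) {v : Sn N} (hv : v ∈ ZP P ^ (m + 1))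
    {w : Sn N} (hw : w ∈ ZP (fun i => ¬ P i) ^ kB) :
    ∀ B ∈ LA P ^ (b + 1 - (m + 1) - kB), IsK (LA P) (b + 1) (F.curryLeft (v * w * B)) := by
  obtain ⟨s', rfl⟩ : ∃ s', s = s' + 2 := ⟨s - 2, by omega⟩
  have e1 : s' + 2 - 1 = s' + 1 := rfl
  rw [e1] at h
  have hrt : m + 1 ≤ t := by
    by_contra hlt
    rw [not_le] at hlt
    have h1 : n * (m + 1) ≤ n * ((s' + 1) * (b + 1)) := by
      apply Nat.mul_le_mul_left
      calc m + 1 ≤ b + 1 := by omega
        _ = 1 * (b + 1) := (one_mul _).symm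
        _ ≤ (s' + 1) * (b + 1) := Nat.mul_le_mul_right _ (by omega)
    have h2 : (n + 1) * t ≤ (n + 1) * (m + 1) := Nat.mul_le_mul_left _ hlt.le
    have h3 : (n + 1) * (m + 1) = n * (m + 1) + (m + 1) := by ring
    omega
  have hlt : n * ((b + 1) * s' + (b + 1 - (m + 1) - kB)) < (n + 1) * (t - (m + 1)) := by
    obtain ⟨b', hb'⟩ : ∃ b', b + 1 = m + 1 + b' := ⟨b + 1 - (m + 1), by omega⟩
    obtain ⟨t', rfl⟩ : ∃ t', t = m + 1 + t' := ⟨t - (m + 1), by omega⟩
    rw [hb', Nat.add_sub_cancel_left, Nat.add_sub_cancel_left]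
    rw [hb'] at h
    have h4 : n * ((m + 1 + b') * s' + (b' - kB)) ≤ n * ((m + 1 + b') * s' + b') :=
      Nat.mul_le_mul_left _ (by omega)
    nlinarith
  have hLA := LA_le P
  have hwB : ∀ B ∈ LA P ^ (b + 1 - (m + 1) - kB), v * w * B ∈ linS (N + 2) ^ (b + 1) := by
    intro B hB
    have h1 : linS (N + 2) ^ (b + 1) = linS (N + 2) ^ (m + 1) * linS (N + 2) ^ kB *
        linS (N + 2) ^ (b + 1 - (m + 1) - kB) := by
      rw [← pow_add, ← pow_add]; congr 1; omega
    rw [h1]
    exact Submodule.mul_mem_mul (Submodule.mul_mem_mul (pow_le_pow_left' (ZP_le _) _ hv)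
      (pow_le_pow_left' (ZP_le _) _ hw)) (pow_le_pow_left' hLA _ hB)
  have hcons : ∀ B ∈ LA P ^ (b + 1 - (m + 1) - kB), ∀ Q : Fin m → Sn N,
      (∀ i, Q i ∈ LA P ^ (b + 1)) → Dg (b + 1) (Fin.cons (v * w * B) Q : Fin (m + 1) → Sn N) := by
    intro B hB Q hQ i
    refine Fin.cases ?_ (fun i => ?_) i
    · rw [Fin.cons_zero]; exact hwB B hB
    · rw [Fin.cons_succ]; exact pow_le_pow_left' hLA _ (hQ i)
  refine mixed_pure2 (r := m + 1) (r0 := b + 1 - (m + 1) - kB) (d := s') (t := t) F (X 0) (X 1)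
    (fun l => X (e l).succ.succ) (ZP P) (LA P)
    (fun l => X_mem_ZP P (he.1 l)) (fun z hz => enum_span P he hz) le_sup_right
    (X0_mem_LA P) (X1_mem_LA P) (LA_decomp P)
    (fun c => sc P c) (fun c => sc_zero P c) (fun c => sc_one P c) (fun c z hz => sc_Z P hz c)
    (fun v => sh N v) (fun v _ => sh_X0 v) (fun v _ => sh_X1 v)
    (fun v _ z hz => sh_Z (ZP_le_ZZ _ hz)) (v * w) ?_ ?_ ?_ ?_ ?_ hrt hlt
  · intro z _
    rw [map_mul, sh_ZZ_pow (pow_le_pow_left' (ZP_le_ZZ _) _ hv),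
      sh_ZZ_pow (pow_le_pow_left' (ZP_le_ZZ _) _ hw)]
  · intro c
    rw [map_mul, sc_pow P hv, sc_pow_of_disj P (fun _ h => h) hw, smul_mul_assoc]
  · intro c hc B hB Q hQ
    exact hA c hc _ (hcons B hB Q hQ)
  · intro z hz B hB Q hQ
    exact hI z (ZP_le_ZZ _ hz) _ (hcons B hB Q hQ)
  · intro B hB x z hz g hg
    rw [Nat.add_sub_cancel] at hg
    have h5 := heavyN (X_mem_linS (0 : Fin (N + 2))) (X_mem_linS (1 : Fin (N + 2))) (ZP_le P)
      (s := s' + 1) (F := F) hF (k := m + 1) le_rfl (by omega) hv (h := w * B) (by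
        have h6 : linS (N + 2) ^ (b + 1 - (m + 1)) = linS (N + 2) ^ kB *
            linS (N + 2) ^ (b + 1 - (m + 1) - kB) := by
          rw [← pow_add]; congr 1; omega
        rw [h6]
        exact Submodule.mul_mem_mul (pow_le_pow_left' (ZP_le _) _ hw)
          (pow_le_pow_left' hLA _ hB)) hz
    rw [← mul_assoc] at h5
    exact poly_of_DZ (by omega) h5 x g (fun i => pow_le_pow_left' hLA _ (hg i))

/-- **The step.** -/
theorem stepW {n s m b tA tB : ℕ} {e : Fin n → Fin N} (he : Enum P n e) (hs : 2 ≤ s)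
    (hmb : m ≤ b) (h2m : 2 * m ≤ b + 1)
    (hK1 : ∀ tA' tB', tA' ≤ tA → tB' ≤ tB → KW P m (b + 1) tA' tB')
    (hK2 : ∀ i l, s ≤ i ∨ 1 ≤ l → i ≤ tA → l ≤ tB → KW P (m + 1) b (tA - i) (tB - l))
    (hnum : tB ≤ m → 2 * m + tB ≤ b + 1 ∧ m ≤ tA ∧
      n * ((s - 1) * (b + 1)) < (n + 1) * (tA - m) ∧
      n * ((s - 1) * (b + 1)) + (m + 1) < (n + 1) * tA) : KW P (m + 1) (b + 1) tA tB := by
  intro F hsy hI hA hB hF
  obtain ⟨hDA, hDB⟩ := tstepW_DZ P (by omega : 1 ≤ s) hK2 F hsy hI hA hB hF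
  apply descent2 P F
  intro kA kB hk hT v hv w hw A hA'
  have hq := mul3_mem P hk hv hw hA'
  rcases lt_or_ge tA kA with h1 | h1
  · exact curry_zeroP P h1 hA hq (sc_A P hv hw hA')
  rcases lt_or_ge tB kB with h2 | h2
  · exact curry_zeroP (fun i => ¬ P i) h2 hB hq (sc_B P hv hw hA')
  have hsy' : IsSymm (F.curryLeft (w * (v * A))) := hsy.curryLeft _
  have hI' := curry_inv2 P hk F hI hT hv hw hA'
  have hAA := curry_homP P h1 hA hq (sc_A P hv hw hA')
  have hBB := curry_homP (fun i => ¬ P i) h2 hB hq (sc_B P hv hw hA')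
  refine hK1 (tA - kA) (tB - kB) (Nat.sub_le _ _) (Nat.sub_le _ _) _ hsy' hI' hAA hBB ?_
  have hvA : v * A ∈ LA P ^ (b + 1 - kB) := by
    have h3 : LA P ^ (b + 1 - kB) = LA P ^ kA * LA P ^ (b + 1 - kA - kB) := by
      rw [← pow_add]; congr 1; omega
    rw [h3]
    exact Submodule.mul_mem_mul (ZP_pow_LA P hv) (U2_pow_LA P hA')
  by_cases hkB : m + 1 ≤ kB
  · -- many light factors
    apply isK_of_line hI'
    intro x g hg
    have h3 := heavyN (X_mem_linS (0 : Fin (N + 2))) (X_mem_linS (1 : Fin (N + 2)))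
      (ZP_le (fun i => ¬ P i)) (s := 0) (F := F) hDB (k := kB) hkB (by omega) hw
      (pow_le_pow_left' (LA_le P) _ hvA) (Submodule.zero_mem _) 0 (le_refl 0) x g hg
    rw [Dev, Finset.powersetCard_zero, Finset.sum_singleton] at h3
    exact h3
  push Not at hkB
  rcases lt_or_ge kB tB with hlt | hge
  · -- positive weight remains
    refine isK_of_indep P (by omega : 1 ≤ tB - kB) hI' hBB ?_
    intro z hz
    exact lightB P hI hT hDB (by omega) (by omega) hw hvA hz
  -- weight zero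
  have hkt : kB = tB := by omega
  obtain ⟨hn0, hn1, hn2, hn3⟩ := hnum (by omega)
  have hB0 : HomP (fun i => ¬ P i) (b + 1) 0 (F.curryLeft (w * (v * A))) := by
    have h3 : tB - kB = 0 := by omega
    rw [h3] at hBB
    exact hBB
  apply isK_of_weight_zero P hB0
  by_cases hkA : kA ≤ m
  · refine lemmaI_A P he (by omega : 1 ≤ s) (lt_of_lt_of_le hn2 ?_) _ hI' hAA ?_
    · exact Nat.mul_le_mul_left _ (by omega)
    · intro y hy
      exact lightA P hT hDA (by omega) (by omega) hv hw hA' hy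
  · push Not at hkA
    have hk2 : kA = (m + 1) + (kA - (m + 1)) := by omega
    rw [hk2, pow_add] at hv
    clear hsy' hI' hAA hBB hB0 hvA hq
    induction hv using Submodule.mul_induction_on' with
    | mem_mul_mem v₁ hv₁ v₂ hv₂ =>
      have h3 := mixed_A P he hs (kB := kB) (by omega) F hI hA hDA hn3 hv₁ hw (v₂ * A) (by
        have h4 : LA P ^ (b + 1 - (m + 1) - kB) =
            LA P ^ (kA - (m + 1)) * LA P ^ (b + 1 - kA - kB) := by
          rw [← pow_add]; congr 1; omega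
        rw [h4]
        exact Submodule.mul_mem_mul (ZP_pow_LA P hv₂) (U2_pow_LA P hA'))
      have e1 : w * (v₁ * v₂ * A) = v₁ * w * (v₂ * A) := by ring
      rw [e1]
      exact h3
    | add x _ y _ hx hy =>
      intro M hM hML
      have h5 := hx M hM hML
      have h6 := hy M hM hML
      rw [add_mul, mul_add, map_add, add_apply, h5, h6, add_zero]

theorem zeroW (b tA tB : ℕ) : KW P 0 b tA tB := by
  intro F hs hI hA hB hK
  exact zeroN N b (tA + tB) F hs hI (HomP_total P hA hB) hK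

end Vale.Agent.P181.H539.W
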