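import Vale.Agent.P181.H539.W.Defs
import Vale.Agent.P181.R2.H866.NTStep
import Mathlib.LinearAlgebra.Lagrange

/-!
# P181 (weighted tail slopes): the step in the degree, for two kinds of variables
-/

set_option autoImplicit false

open MvPolynomial

namespace Vale.Agent.P181.H539.W

open Vale.Agent.P181 Vale.Agent.P181.H536 Vale.Agent.P181.H280 Vale.Agent.P181.TN
open Vale.Agent.P181.R2.H866

section Generic

variable {A : Type*} [CommRing A] [Algebra ℂ A]

/-- The coefficient forms of a polynomial family of forms. -/
lemma exists_coeff_form {a : ℕ} (e : ℕ) (Φ : ℂ → ML A a)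
    (h : ∀ g : Fin a → A, ∃ P : Polynomial ℂ, P.natDegree ≤ e ∧ ∀ μ, P.eval μ = Φ μ g) :
    ∃ E : ℕ → ML A a, ∀ μ g, Φ μ g = ∑ l ∈ Finset.range (e + 1), μ ^ l * E l g := by
  classical
  refine ⟨fun l => ∑ k ∈ Finset.range (e + 1),
    ((Lagrange.basis (Finset.range (e + 1)) (fun k : ℕ => (k : ℂ)) k).coeff l) • Φ (k : ℂ), ?_⟩
  intro μ g
  obtain ⟨P, hP, hPe⟩ := h g
  have hinj : Set.InjOn (fun k : ℕ => (k : ℂ)) (Finset.range (e + 1) : Set ℕ) := by
    intro x _ y _ hxy
    have hxy' : ((x : ℕ) : ℂ) = (y : ℂ) := hxy
    exact_mod_cast hxy'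
  have hdeg : P.degree < (Finset.range (e + 1)).card := by
    rw [Finset.card_range]
    refine lt_of_le_of_lt Polynomial.degree_le_natDegree ?_
    exact_mod_cast Nat.lt_succ_of_le hP
  have h1 := Lagrange.eq_interpolate (f := P) hinj hdeg
  rw [Lagrange.interpolate_apply] at h1
  have hb : ∀ k ∈ Finset.range (e + 1), ∀ μ : ℂ,
      (Lagrange.basis (Finset.range (e + 1)) (fun k : ℕ => (k : ℂ)) k).eval μ =
      ∑ l ∈ Finset.range (e + 1),
        (Lagrange.basis (Finset.range (e + 1)) (fun k : ℕ => (k : ℂ)) k).coeff l * μ ^ l := by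
    intro k hk μ
    apply Polynomial.eval_eq_sum_range'
    have h2 := Lagrange.natDegree_basis hinj hk
    rw [h2, Finset.card_range]
    omega
  rw [← hPe μ]
  conv_lhs => rw [h1]
  rw [Polynomial.eval_finsetSum]
  have h3 : ∀ k ∈ Finset.range (e + 1),
      (Polynomial.C (P.eval (k : ℂ)) *
        Lagrange.basis (Finset.range (e + 1)) (fun k : ℕ => (k : ℂ)) k).eval μ =
      ∑ l ∈ Finset.range (e + 1), μ ^ l *
        ((Lagrange.basis (Finset.range (e + 1)) (fun k : ℕ => (k : ℂ)) k).coeff l *
          Φ (k : ℂ) g) := by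
    intro k hk
    rw [Polynomial.eval_mul, Polynomial.eval_C, hb k hk, Finset.mul_sum, hPe]
    apply Finset.sum_congr rfl
    intro l _
    ring
  rw [Finset.sum_congr rfl h3, Finset.sum_comm]
  apply Finset.sum_congr rfl
  intro l _
  rw [sum_apply, Finset.mul_sum]
  apply Finset.sum_congr rfl
  intro k _
  rw [smul_apply, smul_eq_mul]

/-- `Dev` along a line of the parameter, with the degree. -/
lemma Dev_line_deg {a : ℕ} (F : ML A a) (z y ξ : A) (j : ℕ) (g : Fin a → A) :
    ∃ P : Polynomial ℂ, P.natDegree ≤ j ∧ ∀ μ : ℂ, P.eval μ = Dev (z + μ • y) j ξ F g := by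
  classical
  have h1 : ∀ I ∈ (Finset.univ : Finset (Fin a)).powersetCard j, ∃ P : Polynomial ℂ,
      P.natDegree ≤ j ∧
      ∀ μ : ℂ, P.eval μ = F (fun i => (if i ∈ I then (z + μ • y) else ξ) * g i) := by
    intro I hI
    obtain ⟨P, hP, hPe⟩ := poly_line F (fun i => (if i ∈ I then z else ξ) * g i)
      (fun i => (if i ∈ I then y else 0) * g i) I (fun i hi => by
        simp only [if_neg hi, zero_mul])
    rw [(Finset.mem_powersetCard.1 hI).2] at hP
    refine ⟨P, hP, fun μ => ?_⟩
    rw [hPe]
    congr 1
    funext i
    by_cases hi : i ∈ I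
    · rw [if_pos hi, if_pos hi, if_pos hi, add_mul, smul_mul_assoc]
    · rw [if_neg hi, if_neg hi, if_neg hi, zero_mul, smul_zero, add_zero]
  choose! P hP hPe using h1
  refine ⟨∑ I ∈ (Finset.univ : Finset (Fin a)).powersetCard j, P I,
    Polynomial.natDegree_sum_le_of_forall_le _ _ hP, fun μ => ?_⟩
  rw [Polynomial.eval_finsetSum, Dev]
  exact Finset.sum_congr rfl (fun I hI => hPe I hI μ)

/-- The top coefficient of a difference is invariant. -/
lemma Dev_inv2 {a : ℕ} (F : ML A a) {v₁ v₂ z' ξ : A} {e : ℕ} (g : Fin a → A) (σ : A →ₐ[ℂ] A)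
    (hσξ : σ ξ = ξ + z') (hσ1 : σ v₁ = v₁) (hσ2 : σ v₂ = v₂) (hσz' : σ z' = z')
    (hF1 : ∀ c : ℂ, F (fun i => σ ((ξ + (c • v₁ - z')) * g i)) =
      F (fun i => (ξ + (c • v₁ - z')) * g i))
    (hF2 : ∀ c : ℂ, F (fun i => σ ((ξ + (c • v₂ - z')) * g i)) =
      F (fun i => (ξ + (c • v₂ - z')) * g i))
    (h1 : ∀ j, e < j → Dev v₁ j ξ F (fun i => σ (g i)) = Dev v₂ j ξ F (fun i => σ (g i)))
    (h2 : ∀ j, e < j → ∀ μ : ℂ, Dev (v₁ + μ • (-z')) j ξ F g = Dev (v₂ + μ • (-z')) j ξ F g) :
    Dev v₁ e ξ F (fun i => σ (g i)) - Dev v₂ e ξ F (fun i => σ (g i)) =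
      Dev v₁ e ξ F g - Dev v₂ e ξ F g := by
  choose P₁ hP₁ using fun j => Dev_line F v₁ (-z') ξ j g
  choose P₂ hP₂ using fun j => Dev_line F v₂ (-z') ξ j g
  have hkey : (∑ j ∈ Finset.range (e + 1), Polynomial.C (Dev v₁ j ξ F (fun i => σ (g i)) -
      Dev v₂ j ξ F (fun i => σ (g i))) *
      Polynomial.X ^ (e - j) : Polynomial ℂ) =
      ∑ j ∈ Finset.range (e + 1), (P₁ j - P₂ j) * Polynomial.X ^ (e - j) := by
    apply Polynomial.eq_of_infinite_eval_eq
    apply Set.Infinite.mono (s := ({0} : Set ℂ)ᶜ)
    · intro μ hμ
      have hμ0 : μ ≠ 0 := hμ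
      rw [Set.mem_ofPred_eq, Polynomial.eval_finsetSum, Polynomial.eval_finsetSum]
      simp only [Polynomial.eval_mul, Polynomial.eval_C, Polynomial.eval_pow, Polynomial.eval_X,
        Polynomial.eval_sub, hP₁, hP₂]
      have gen' : ∀ v : A, σ v = v → (∀ c : ℂ, F (fun i => σ ((ξ + (c • v - z')) * g i)) =
          F (fun i => (ξ + (c • v - z')) * g i)) →
          F (fun i => (ξ + μ⁻¹ • v) * σ (g i)) = F (fun i => (ξ + μ⁻¹ • (v + μ • (-z'))) * g i) := by
        intro v hσv hFv
        have h3 := hFv μ⁻¹
        have h4 : (fun i => σ ((ξ + (μ⁻¹ • v - z')) * g i)) =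
            fun i => (ξ + μ⁻¹ • v) * σ (g i) := by
          funext i
          rw [map_mul, map_add, map_sub, map_smul, hσξ, hσv, hσz']
          congr 1
          abel
        have h5 : ξ + (μ⁻¹ • v - z') = ξ + μ⁻¹ • (v + μ • (-z')) := by
          rw [smul_add, smul_smul, inv_mul_cancel₀ hμ0, one_smul, sub_eq_add_neg]
        rw [h4, h5] at h3
        exact h3
      have e1 := gen' v₁ hσ1 hF1
      have e2 := gen' v₂ hσ2 hF2
      rw [gen, gen] at e1 e2
      have e3 : ∑ j ∈ Finset.range (a + 1), μ⁻¹ ^ j * (Dev v₁ j ξ F (fun i => σ (g i)) -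
          Dev v₂ j ξ F (fun i => σ (g i))) =
          ∑ j ∈ Finset.range (a + 1), μ⁻¹ ^ j * (Dev (v₁ + μ • (-z')) j ξ F g -
            Dev (v₂ + μ • (-z')) j ξ F g) := by
        simp only [mul_sub, Finset.sum_sub_distrib]
        rw [e1, e2]
      have trunc : ∀ u : ℕ → ℂ, (∀ j, e < j → u j = 0) → (∀ j, a < j → u j = 0) →
          ∑ j ∈ Finset.range (a + 1), μ⁻¹ ^ j * u j = ∑ j ∈ Finset.range (e + 1), μ⁻¹ ^ j * u j := by
        intro u hu hu'
        rcases le_total a e with h | h
        · apply Finset.sum_subset (Finset.range_mono (by omega))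
          intro j _ hj
          rw [Finset.mem_range] at hj
          rw [hu' j (by omega), mul_zero]
        · symm
          apply Finset.sum_subset (Finset.range_mono (by omega))
          intro j _ hj
          rw [Finset.mem_range] at hj
          rw [hu j (by omega), mul_zero]
      rw [trunc _ (fun j hj => by rw [h1 j hj, sub_self])
          (fun j hj => by rw [Dev_of_lt _ hj, Dev_of_lt _ hj, sub_self]),
        trunc _ (fun j hj => by rw [h2 j hj μ, sub_self])
          (fun j hj => by rw [Dev_of_lt _ hj, Dev_of_lt _ hj, sub_self])] at e3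
      have fin : ∀ u : ℕ → ℂ, ∑ j ∈ Finset.range (e + 1), u j * μ ^ (e - j) =
          μ ^ e * ∑ j ∈ Finset.range (e + 1), μ⁻¹ ^ j * u j := by
        intro u
        rw [Finset.mul_sum]
        apply Finset.sum_congr rfl
        intro j hj
        rw [Finset.mem_range] at hj
        have h6 : μ ^ e = μ ^ (e - j) * μ ^ j := by rw [← pow_add]; congr 1; omega
        rw [h6, inv_pow]
        field_simp
      rw [fin, fin, e3]
    · exact (Set.finite_singleton (0 : ℂ)).infinite_compl
  have h0 := congrArg (Polynomial.eval 0) hkey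
  rw [Polynomial.eval_finsetSum, Polynomial.eval_finsetSum] at h0
  simp only [Polynomial.eval_mul, Polynomial.eval_C, Polynomial.eval_pow, Polynomial.eval_X,
    Polynomial.eval_sub, hP₁, hP₂] at h0
  have h7 : ∀ u : ℕ → ℂ, ∑ j ∈ Finset.range (e + 1), u j * (0 : ℂ) ^ (e - j) = u e := by
    intro u
    rw [Finset.sum_eq_single e]
    · rw [Nat.sub_self, pow_zero, mul_one]
    · intro j hj hje
      rw [Finset.mem_range] at hj
      rw [zero_pow (by omega), mul_zero]
    · intro h
      exact absurd (Finset.mem_range.2 (Nat.lt_succ_self e)) h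
  rw [h7, h7, zero_smul, add_zero, add_zero] at h0
  exact h0

/-- Equality of polynomial functions gives equality of the coefficients. -/
lemma coeff_eq_of_sum {e : ℕ} {u v : ℕ → ℂ}
    (h : ∀ μ : ℂ, ∑ l ∈ Finset.range (e + 1), μ ^ l * u l =
      ∑ l ∈ Finset.range (e + 1), μ ^ l * v l) {l : ℕ} (hl : l < e + 1) : u l = v l := by
  have h1 : u l - v l = 0 := by
    refine coeff_zero_of_sum (N := e + 1) (u := fun l => u l - v l) ?_ hl
    intro c
    have := h c
    simp only [mul_sub, Finset.sum_sub_distrib]
    rw [this, sub_self]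
  exact sub_eq_zero.1 h1

end Generic

variable {N : ℕ} (P : Fin N → Prop) [DecidablePred P]

/-- The scaling of one argument is polynomial. -/
lemma sc_poly (Q : Sn N) :
    ∃ p : Polynomial (Sn N), ∀ c : ℂ, p.eval (algebraMap ℂ (Sn N) c) = sc P c Q := by
  let g : Sn N →ₐ[ℂ] Polynomial (Sn N) := aeval (Fin.cons (Polynomial.C (X 0))
    (Fin.cons (Polynomial.C (X 1)) (fun i : Fin N => if P i then
      Polynomial.C (X i.succ.succ) * Polynomial.X else Polynomial.C (X i.succ.succ))))
  refine ⟨g Q, fun c => ?_⟩
  have h : ((Polynomial.aeval (algebraMap ℂ (Sn N) c) :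
      Polynomial (Sn N) →ₐ[Sn N] Sn N).restrictScalars ℂ).comp g = sc P c := by
    apply MvPolynomial.algHom_ext
    intro i
    rw [AlgHom.comp_apply, aeval_X, AlgHom.restrictScalars_apply]
    refine Fin.cases ?_ (fun i => ?_) i
    · rw [Fin.cons_zero, Polynomial.aeval_C, sc_zero]
      rfl
    · refine Fin.cases ?_ (fun i => ?_) i
      · rw [Fin.cons_succ, Fin.cons_zero, Polynomial.aeval_C]
        exact (sc_one P c).symm
      · rw [Fin.cons_succ, Fin.cons_succ, sc_succ]
        split_ifs
        · rw [map_mul, Polynomial.aeval_C, Polynomial.aeval_X, Algebra.smul_def, mul_comm]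
          rfl
        · rw [Polynomial.aeval_C]
          rfl
  have h2 := congrArg (fun g : Sn N →ₐ[ℂ] Sn N => g Q) h
  simp only [AlgHom.comp_apply, AlgHom.restrictScalars_apply] at h2
  rw [← h2, Polynomial.coe_aeval_eq_eval]

/-- A form of negative weight vanishes. -/
lemma weight_zero {a k t : ℕ} (hkt : t < k) (Ψ : Fm N a) (g : Fin a → Sn N)
    (h : ∀ c : ℂ, c ≠ 0 → c ^ k * Ψ (fun i => sc P c (g i)) = c ^ t * Ψ g) : Ψ g = 0 := by
  choose R hR using fun i => sc_poly P (g i)
  obtain ⟨q, hq⟩ := poly_exists Ψ R
  have h1 : Polynomial.X ^ (k - t) * q = Polynomial.C (Ψ g) := by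
    apply Polynomial.eq_of_infinite_eval_eq
    apply Set.Infinite.mono (s := ({0} : Set ℂ)ᶜ)
    · intro c hc
      have hc0 : c ≠ 0 := hc
      rw [Set.mem_ofPred_eq, Polynomial.eval_mul, Polynomial.eval_pow, Polynomial.eval_X,
        Polynomial.eval_C, hq]
      simp only [hR]
      have h2 := h c hc0
      have h3 : c ^ k = c ^ t * c ^ (k - t) := by rw [← pow_add]; congr 1; omega
      rw [h3, mul_assoc] at h2
      exact mul_left_cancel₀ (pow_ne_zero t hc0) h2
    · exact (Set.finite_singleton (0 : ℂ)).infinite_compl
  have h2 := congrArg (Polynomial.eval (0 : ℂ)) h1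
  rw [Polynomial.eval_mul, Polynomial.eval_pow, Polynomial.eval_X, Polynomial.eval_C,
    zero_pow (by omega), zero_mul] at h2
  exact h2.symm

/-- Scaling of `Dev`. -/
lemma Dev_sc {a b t e : ℕ} {F : Fm N a} (hH : HomP P (b + 1) t F) {v v' : Sn N} (hv : v ∈ ZZ N)
    {u c : ℂ} (hc : c ≠ 0) (huv : sc P c v = u • v') (x : ℂ) {g : Fin a → Sn N} (hg : Dg b g) :
    c ^ t * Dev v e (ln N x) F g = u ^ e * Dev v' e (ln N x) F (fun i => sc P c (g i)) := by
  rw [Dev, Dev, Finset.mul_sum, Finset.mul_sum]
  apply Finset.sum_congr rfl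
  intro I hI
  have h1 := hH c hc (fun i => (if i ∈ I then v else ln N x) * g i) (by
    intro i
    rw [pow_succ']
    refine Submodule.mul_mem_mul ?_ (hg i)
    split_ifs
    · exact ZZ_le hv
    · exact ln_mem x)
  rw [← h1]
  have h2 : (fun i => sc P c ((if i ∈ I then v else ln N x) * g i)) =
      fun i => (if i ∈ I then u else 1) • ((if i ∈ I then v' else ln N x) * sc P c (g i)) := by
    funext i
    rw [map_mul]
    by_cases hi : i ∈ I
    · rw [if_pos hi, if_pos hi, if_pos hi, huv, smul_mul_assoc]
    · rw [if_neg hi, if_neg hi, if_neg hi, sc_ln, one_smul]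
  rw [h2, MultilinearMap.map_smul_univ, smul_eq_mul]
  congr 1
  rw [Finset.prod_ite_mem, Finset.univ_inter, Finset.prod_const, (Finset.mem_powersetCard.1 hI).2]

/-- **The step in the degree.** -/
theorem tstepW {s a b tA tB : ℕ} (hs : 1 ≤ s)
    (hK : ∀ i l, s ≤ i ∨ 1 ≤ l → i ≤ tA → l ≤ tB → KW P a b (tA - i) (tB - l)) (F : Fm N a)
    (hsy : IsSymm F) (hI : Inv (b + 1) F) (hA : HomP P (b + 1) tA F)
    (hB : HomP (fun i => ¬ P i) (b + 1) tB F) (hF : IsK (linS (N + 2)) (b + 1) F) :
    ∀ e, 1 ≤ e → ∀ y ∈ ZP P, ∀ z ∈ ZP (fun i => ¬ P i), ∀ (x : ℂ) (g : Fin a → Sn N), Dg b g →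
      (s ≤ e → Dev (y + z) e (ln N x) F g = 0) ∧
        Dev (y + z) e (ln N x) F g = Dev y e (ln N x) F g := by
  have main : ∀ d e, a < e + d → 1 ≤ e → ∀ y ∈ ZP P, ∀ z ∈ ZP (fun i => ¬ P i),
      ∀ (x : ℂ) (g : Fin a → Sn N), Dg b g →
      (s ≤ e → Dev (y + z) e (ln N x) F g = 0) ∧
        Dev (y + z) e (ln N x) F g = Dev y e (ln N x) F g := by
    intro d
    induction d with
    | zero =>
      intro e he _ y _ z _ x g _
      have he' : a < e := he
      exact ⟨fun _ => Dev_of_lt _ he' _ _ _, by rw [Dev_of_lt _ he', Dev_of_lt _ he']⟩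
    | succ d ih =>
      intro e he h1e
      -- the invariance of `F` on products
      have hFinv : ∀ v ∈ ZZ N, ∀ z' ∈ ZZ N, ∀ (x : ℂ) (g : Fin a → Sn N), Dg b g → ∀ c : ℂ,
          F (fun i => sh N z' ((ln N x + (c • v - z')) * g i)) =
            F (fun i => (ln N x + (c • v - z')) * g i) := by
        intro v hv z' hz' x g hg c
        apply hI z' hz'
        intro i
        rw [pow_succ']
        exact Submodule.mul_mem_mul
          (line_mem ((ZZ N).sub_mem ((ZZ N).smul_mem _ hv) hz') x) (hg i)
      -- the second part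
      have second : ∀ y ∈ ZP P, ∀ z ∈ ZP (fun i => ¬ P i), ∀ (x : ℂ) (g : Fin a → Sn N), Dg b g →
          Dev (y + z) e (ln N x) F g = Dev y e (ln N x) F g := by
        intro y hy z hz x g hg
        obtain ⟨E, hE⟩ := exists_coeff_form e (fun μ => Dform (y + μ • z) e (ln N x) F) (by
          intro g
          obtain ⟨Q, hQ, hQe⟩ := Dev_line_deg F y z (ln N x) e g
          refine ⟨Q, hQ, fun μ => ?_⟩
          rw [hQe, Dform_apply])
        simp only [Dform_apply] at hE
        have hyz : ∀ μ : ℂ, y + μ • z ∈ ZZ N := fun μ =>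
          (ZZ N).add_mem (ZP_le_ZZ _ hy) ((ZZ N).smul_mem _ (ZP_le_ZZ _ hz))
        -- the coefficients vanish
        have hE0 : ∀ l, 1 ≤ l → l < e + 1 → ∀ g : Fin a → Sn N, Dg b g → E l g = 0 := by
          intro l hl1 hle
          have hscA : ∀ g : Fin a → Sn N, Dg b g → ∀ c : ℂ, c ≠ 0 →
              c ^ (e - l) * E l (fun i => sc P c (g i)) = c ^ tA * E l g := by
            intro g hg c hc
            have h3 : c ^ e * E l (fun i => sc P c (g i)) = c ^ tA * (c ^ l * E l g) := by
              refine coeff_eq_of_sum (e := e) (u := fun l => c ^ e * E l (fun i => sc P c (g i)))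
                (v := fun l => c ^ tA * (c ^ l * E l g)) ?_ hle
              intro μ
              have h4 := Dev_sc P hA (e := e) (v := y + (c * μ) • z) (v' := y + μ • z) (u := c)
                (hyz _) hc (by
                  rw [map_add, map_smul, sc_Z P hy, sc_Z_of_disj P (fun _ h => h) hz, smul_add,
                    smul_smul]) x hg
              rw [hE, hE, Finset.mul_sum, Finset.mul_sum] at h4
              calc ∑ l ∈ Finset.range (e + 1), μ ^ l * (c ^ e * E l (fun i => sc P c (g i)))
                  = ∑ l ∈ Finset.range (e + 1), c ^ e * (μ ^ l * E l (fun i => sc P c (g i))) :=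
                    Finset.sum_congr rfl fun l _ => by ring
                _ = ∑ l ∈ Finset.range (e + 1), c ^ tA * ((c * μ) ^ l * E l g) := h4.symm
                _ = _ := Finset.sum_congr rfl fun l _ => by rw [mul_pow]; ring
            have h5 : c ^ e = c ^ l * c ^ (e - l) := by rw [← pow_add]; congr 1; omega
            rw [h5, mul_assoc, mul_left_comm (c ^ tA)] at h3
            exact mul_left_cancel₀ (pow_ne_zero _ hc) h3
          have hscB : ∀ g : Fin a → Sn N, Dg b g → ∀ c : ℂ, c ≠ 0 →
              c ^ l * E l (fun i => sc (fun i => ¬ P i) c (g i)) = c ^ tB * E l g := by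
            intro g hg c hc
            refine coeff_eq_of_sum (e := e)
              (u := fun l => c ^ l * E l (fun i => sc (fun i => ¬ P i) c (g i)))
              (v := fun l => c ^ tB * E l g) ?_ hle
            intro μ
            have h4 := Dev_sc (fun i => ¬ P i) hB (e := e) (v := y + μ • z)
              (v' := y + (c * μ) • z) (u := 1) (hyz _) hc (by
                rw [map_add, map_smul, sc_Z _ hz,
                  sc_Z_of_disj (fun i => ¬ P i) (fun _ h => not_not.2 h) hy, one_smul, smul_smul,
                  mul_comm]) x hg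
            rw [hE, hE, Finset.mul_sum, one_pow, one_mul] at h4
            calc ∑ l ∈ Finset.range (e + 1), μ ^ l *
                  (c ^ l * E l (fun i => sc (fun i => ¬ P i) c (g i)))
                = ∑ l ∈ Finset.range (e + 1), (c * μ) ^ l *
                  E l (fun i => sc (fun i => ¬ P i) c (g i)) :=
                  Finset.sum_congr rfl fun l _ => by rw [mul_pow]; ring
              _ = ∑ l ∈ Finset.range (e + 1), c ^ tB * (μ ^ l * E l g) := h4.symm
              _ = _ := Finset.sum_congr rfl fun l _ => by ring
          by_cases h6 : l ≤ tB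
          · by_cases h7 : e - l ≤ tA
            · have hV : Van b (E l) := by
                apply hK (e - l) l (Or.inr hl1) h7 h6 (E l)
                · intro τ g
                  refine coeff_eq_of_sum (e := e) (u := fun l => E l (fun i => g (τ i)))
                    (v := fun l => E l g) ?_ hle
                  intro μ
                  have h8 := Dform_symm (y + μ • z) e (ln N x) hsy τ g
                  rw [Dform_apply, Dform_apply, hE, hE] at h8
                  exact h8
                · intro z' hz' g hg
                  have hz'' := hz'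
                  rw [ZZ_eq P] at hz''
                  obtain ⟨y', hy', w', hw', hyw⟩ := Submodule.mem_sup.1 hz''
                  have h8 : E l (fun i => sh N z' (g i)) - E l g = 0 := by
                    by_cases hl0 : l = 0
                    · omega
                    refine coeff_zero_of_sum (N := e + 1)
                      (u := fun l => if l = 0 then 0 else E l (fun i => sh N z' (g i)) - E l g)
                      ?_ hle |> fun h => by simpa only [if_neg hl0] using h
                    intro μ
                    have h9 := Dev_inv2 F (v₁ := y + μ • z) (v₂ := y) (e := e) g (sh N z')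
                      (sh_ln z' x) (sh_Z (hyz μ)) (sh_Z (ZP_le_ZZ _ hy)) (sh_Z hz')
                      (hFinv _ (hyz μ) z' hz' x g hg) (hFinv _ (ZP_le_ZZ _ hy) z' hz' x g hg)
                      (fun j hj => (ih j (by omega) (by omega) y hy (μ • z)
                        ((ZP _).smul_mem _ hz) x _ (fun i => sh_mem hz' (hg i))).2)
                      (fun j hj ν => by
                        have e1 : y + μ • z + ν • (-z') = (y + ν • (-y')) + (μ • z + ν • (-w')) := by
                          rw [← hyw, neg_add, smul_add]; abel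
                        have e2 : y + ν • (-z') = (y + ν • (-y')) + ν • (-w') := by
                          rw [← hyw, neg_add, smul_add]; abel
                        rw [e1, e2]
                        have h10 : y + ν • (-y') ∈ ZP P :=
                          (ZP P).add_mem hy ((ZP P).smul_mem _ ((ZP P).neg_mem hy'))
                        have h11 : ν • (-w') ∈ ZP (fun i => ¬ P i) :=
                          (ZP _).smul_mem _ ((ZP _).neg_mem hw')
                        rw [(ih j (by omega) (by omega) _ h10 _
                            ((ZP _).add_mem ((ZP _).smul_mem _ hz) h11) x g hg).2,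
                          (ih j (by omega) (by omega) _ h10 _ h11 x g hg).2])
                    have h12 : ∀ g : Fin a → Sn N, Dev y e (ln N x) F g = E 0 g := by
                      intro g
                      have h13 := hE 0 g
                      rw [zero_smul, add_zero] at h13
                      rw [h13, Finset.sum_eq_single 0]
                      · rw [pow_zero, one_mul]
                      · intro l _ hl
                        rw [zero_pow hl, zero_mul]
                      · intro h
                        exact absurd (Finset.mem_range.2 (Nat.succ_pos e)) h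
                    rw [h12, h12, hE, hE] at h9
                    rw [Finset.sum_range_succ', Finset.sum_range_succ'] at h9
                    rw [Finset.sum_range_succ']
                    simp only [pow_zero, one_mul, add_sub_cancel_right, if_pos, mul_zero, add_zero,
                      Nat.add_eq_zero_iff, one_ne_zero, and_false, if_false, mul_sub,
                      Finset.sum_sub_distrib] at h9 ⊢
                    rw [h9, sub_self]
                  exact sub_eq_zero.1 h8
                · intro c hc g hg
                  have h8 := hscA g hg c hc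
                  have h9 : c ^ tA = c ^ (e - l) * c ^ (tA - (e - l)) := by
                    rw [← pow_add]; congr 1; omega
                  rw [h9, mul_assoc] at h8
                  exact mul_left_cancel₀ (pow_ne_zero _ hc) h8
                · intro c hc g hg
                  have h8 := hscB g hg c hc
                  have h9 : c ^ tB = c ^ l * c ^ (tB - l) := by
                    rw [← pow_add]; congr 1; omega
                  rw [h9, mul_assoc] at h8
                  exact mul_left_cancel₀ (pow_ne_zero _ hc) h8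
                · intro m hm hmL
                  refine coeff_zero_of_sum (N := e + 1) (u := fun l => E l (fun _ => m.prod))
                    ?_ hle
                  intro μ
                  have h8 := Dform_isK hF (ZZ_le (hyz μ)) (ln_mem x) e m hm hmL
                  rw [Dform_apply, hE] at h8
                  exact h8
              exact hV
            · intro g hg
              exact weight_zero P (by omega) (E l) g (hscA g hg)
          · intro g hg
            exact weight_zero (fun i => ¬ P i) (by omega) (E l) g (hscB g hg)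
        have h1 := hE 1 g
        have h0 := hE 0 g
        rw [one_smul] at h1
        rw [zero_smul, add_zero] at h0
        rw [h1, h0]
        apply Finset.sum_congr rfl
        intro l hl
        rcases Nat.eq_zero_or_pos l with rfl | hl0
        · rw [pow_zero, pow_zero]
        · rw [hE0 l hl0 (Finset.mem_range.1 hl) g hg, mul_zero, mul_zero]
      intro y hy z hz x g hg
      refine ⟨fun hse => ?_, second y hy z hz x g hg⟩
      rw [second y hy z hz x g hg]
      have hsA : ∀ g : Fin a → Sn N, Dg b g → ∀ c : ℂ, c ≠ 0 →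
          c ^ tA * Dev y e (ln N x) F g =
            c ^ e * Dev y e (ln N x) F (fun i => sc P c (g i)) :=
        fun g hg c hc => Dev_sc P hA (ZP_le_ZZ _ hy) hc (sc_Z P hy c) x hg
      have hsB : ∀ g : Fin a → Sn N, Dg b g → ∀ c : ℂ, c ≠ 0 →
          c ^ tB * Dev y e (ln N x) F g =
            1 ^ e * Dev y e (ln N x) F (fun i => sc (fun i => ¬ P i) c (g i)) :=
        fun g hg c hc => Dev_sc (fun i => ¬ P i) hB (ZP_le_ZZ _ hy) hc (by
          rw [one_smul, sc_Z_of_disj (fun i => ¬ P i) (fun _ h => not_not.2 h) hy]) x hg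
      rcases lt_or_ge tA e with hte | hte
      · rw [← Dform_apply]
        apply weight_zero P hte
        intro c hc
        rw [Dform_apply, Dform_apply]
        exact (hsA g hg c hc).symm
      · have hV : Van b (Dform y e (ln N x) F) := by
          have hKe := hK e 0 (Or.inl hse) hte (Nat.zero_le _)
          rw [Nat.sub_zero] at hKe
          apply hKe
          · exact Dform_symm y e _ hsy
          · intro z' hz' Q hQ
            have hz'' := hz'
            rw [ZZ_eq P] at hz''
            obtain ⟨y', hy', w', hw', hyw⟩ := Submodule.mem_sup.1 hz''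
            rw [Dform_apply, Dform_apply]
            apply Dev_inv F Q (sh N z') (sh_ln z' x) (sh_Z (ZP_le_ZZ _ hy)) (sh_Z hz')
            · exact hFinv y (ZP_le_ZZ _ hy) z' hz' x Q hQ
            · intro j hj
              have h3 := ih j (by omega) (by omega) y hy 0 (Submodule.zero_mem _) x _
                (fun i => sh_mem hz' (hQ i))
              rw [add_zero] at h3
              exact h3.1 (by omega)
            · intro j hj μ
              have e2 : y + μ • (-z') = (y + μ • (-y')) + μ • (-w') := by
                rw [← hyw, neg_add, smul_add]; abel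
              rw [e2]
              exact (ih j (by omega) (by omega) _
                ((ZP P).add_mem hy ((ZP P).smul_mem _ ((ZP P).neg_mem hy'))) _
                ((ZP _).smul_mem _ ((ZP _).neg_mem hw')) x Q hQ).1 (by omega)
          · intro c hc Q hQ
            rw [Dform_apply, Dform_apply]
            have h1 := (hsA Q hQ c hc).symm
            have h2 : c ^ tA = c ^ e * c ^ (tA - e) := by rw [← pow_add]; congr 1; omega
            rw [h2, mul_assoc] at h1
            exact mul_left_cancel₀ (pow_ne_zero _ hc) h1
          · intro c hc Q hQ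
            rw [Dform_apply, Dform_apply]
            have h1 := (hsB Q hQ c hc).symm
            rw [one_pow, one_mul] at h1
            exact h1
          · exact Dform_isK hF (ZP_le _ hy) (ln_mem x) e
        rw [← Dform_apply]
        exact hV g hg
  intro e he y hy z hz x g hg
  exact main (a + 1) e (by omega) he y hy z hz x g hg

/-- The consequences in the form of `DZ`. -/
theorem tstepW_DZ {s a b tA tB : ℕ} (hs : 1 ≤ s)
    (hK : ∀ i l, s ≤ i ∨ 1 ≤ l → i ≤ tA → l ≤ tB → KW P a b (tA - i) (tB - l)) (F : Fm N a)
    (hsy : IsSymm F) (hI : Inv (b + 1) F) (hA : HomP P (b + 1) tA F)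
    (hB : HomP (fun i => ¬ P i) (b + 1) tB F) (hF : IsK (linS (N + 2)) (b + 1) F) :
    (∀ y ∈ ZP P, DZ (X 0) (X 1) y (linS (N + 2)) b s F) ∧
      ∀ z ∈ ZP (fun i => ¬ P i), DZ (X 0) (X 1) z (linS (N + 2)) b 1 F := by
  have h := tstepW P hs hK F hsy hI hA hB hF
  constructor
  · intro y hy j hj x g hg
    have h1 := (h j (by omega) y hy 0 (Submodule.zero_mem _) x g hg).1 hj
    rw [add_zero] at h1
    exact h1
  · intro z hz j hj x g hg
    have h1 := (h j hj 0 (Submodule.zero_mem _) z hz x g hg).2
    rw [zero_add] at h1
    refine h1.trans ?_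
    rw [Dev]
    apply Finset.sum_eq_zero
    intro I hI
    have hne : I.Nonempty := by
      rw [← Finset.card_pos, (Finset.mem_powersetCard.1 hI).2]
      omega
    obtain ⟨i, hi⟩ := hne
    apply F.map_coord_zero i
    rw [if_pos hi, zero_mul]

end Vale.Agent.P181.H539.W
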